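import Vale.Agent.P146.H332.CDef

/-!
The four positions of the plan R1 and the average over a set `R` of couplings, in all the blocks:
the positions of a row after averaging are again Gaussian positions of variance `s1`, `s2`.
The row model: the average over the couplings of the row `b` is an average over `Fin n → ℝ`.
-/

open MeasureTheory ProbabilityTheory

namespace Vale.Agent.P146.R1C

open Vale.Agent.P157.Lv Vale.Agent.P146.H425 Vale.Agent.P146.H712 Vale.Agent.P146.R1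

set_option linter.unusedSectionVars false

variable {κ : Type} [Fintype κ] [DecidableEq κ] {t0 t1 s1 s2 s : ℝ} {R R' : Finset κ}

/-! ### `sw` -/

lemma sw_add_smul (R : Finset κ) (z z' w w' : κ → ℝ) (c : ℝ) :
    sw R (z + c • z') (w + c • w') = sw R z w + c • sw R z' w' := by
  funext e
  by_cases h : e ∈ R <;> simp [sw, h]

lemma sw_smul (R : Finset κ) (z w : κ → ℝ) (c : ℝ) : sw R (c • z) (c • w) = c • sw R z w := by
  funext e
  by_cases h : e ∈ R <;> simp [sw, h]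

lemma sw_sw (R : Finset κ) (z w w' : κ → ℝ) : sw R (sw R z w) w' = sw R z w' := by
  funext e
  by_cases h : e ∈ R <;> simp [sw, h]

lemma norm_sw_le (R : Finset κ) (z w : κ → ℝ) : ‖sw R z w‖ ≤ ‖z‖ + ‖w‖ := by
  refine (pi_norm_le_iff_of_nonneg (by positivity)).2 fun e => ?_
  unfold sw
  split_ifs
  · exact (norm_le_pi_norm w e).trans (by linarith [norm_nonneg z])
  · exact (norm_le_pi_norm z e).trans (by linarith [norm_nonneg w])

lemma c0_sw (R : Finset κ) (w u : K4 κ → ℝ) : c0 (sw (lf R) w u) = sw R (c0 w) (c0 u) := by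
  funext e
  simp only [c0, sw, lf, Finset.inl_mem_disjSum]
lemma c1_sw (R : Finset κ) (w u : K4 κ → ℝ) : c1 (sw (lf R) w u) = sw R (c1 w) (c1 u) := by
  funext e
  simp only [c1, sw, lf, Finset.inl_mem_disjSum, Finset.inr_mem_disjSum]
lemma c2_sw (R : Finset κ) (w u : K4 κ → ℝ) : c2 (sw (lf R) w u) = sw R (c2 w) (c2 u) := by
  funext e
  simp only [c2, sw, lf, Finset.inl_mem_disjSum, Finset.inr_mem_disjSum]
lemma c3_sw (R : Finset κ) (w u : K4 κ → ℝ) : c3 (sw (lf R) w u) = sw R (c3 w) (c3 u) := by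
  funext e
  simp only [c3, sw, lf, Finset.inr_mem_disjSum]

lemma p0_sw (t0 : ℝ) (R : Finset κ) (w u : K4 κ → ℝ) :
    p0 t0 (sw (lf R) w u) = sw R (p0 t0 w) (p0 t0 u) := by
  unfold p0
  rw [c0_sw, sw_smul]
lemma p1_sw (t0 t1 : ℝ) (R : Finset κ) (w u : K4 κ → ℝ) :
    p1 t0 t1 (sw (lf R) w u) = sw R (p1 t0 t1 w) (p1 t0 t1 u) := by
  unfold p1
  rw [c1_sw, p0_sw, sw_add_smul]
lemma p2_sw (t0 t1 s1 : ℝ) (R : Finset κ) (w u : K4 κ → ℝ) :
    p2 t0 t1 s1 (sw (lf R) w u) = sw R (p2 t0 t1 s1 w) (p2 t0 t1 s1 u) := by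
  unfold p2
  rw [c2_sw, p1_sw, sw_add_smul]
lemma p3_sw (t0 t1 s1 s2 : ℝ) (R : Finset κ) (w u : K4 κ → ℝ) :
    p3 t0 t1 s1 s2 (sw (lf R) w u) = sw R (p3 t0 t1 s1 s2 w) (p3 t0 t1 s1 s2 u) := by
  unfold p3
  rw [c3_sw, p2_sw, sw_add_smul]

/-! ### exponential growth -/

lemma eg_int {α β : Type} [Fintype α] [Fintype β] {G : (α ⊕ β → ℝ) → ℝ} (hG : EG G) :
    EG fun w1 : α → ℝ => ∫ w2, G (Sum.elim w1 w2) ∂(gI β) := by
  obtain ⟨C, k, hC, hk, hb⟩ := hG.bdd
  have hE : EG fun w2 : β → ℝ => Real.exp (k * ‖w2‖) :=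
    ⟨by fun_prop, 1, k, zero_le_one, hk, fun y => by
      rw [abs_of_pos (Real.exp_pos _), one_mul]⟩
  have hm : Measurable fun q : (α → ℝ) × (β → ℝ) => G (Sum.elim q.1 q.2) := by
    refine hG.meas.comp (measurable_pi_lambda _ fun e => ?_)
    rcases e with e | e
    · exact (measurable_pi_apply e).comp measurable_fst
    · exact (measurable_pi_apply e).comp measurable_snd
  refine ⟨hm.stronglyMeasurable.integral_prod_right'.measurable,
    C * ∫ w2, Real.exp (k * ‖w2‖) ∂(gI β), k,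
    mul_nonneg hC (integral_nonneg fun _ => (Real.exp_pos _).le), hk, fun w1 => ?_⟩
  have h1 : ∀ w2 : β → ℝ, |G (Sum.elim w1 w2)| ≤
      C * Real.exp (k * ‖w1‖) * Real.exp (k * ‖w2‖) := by
    intro w2
    refine (hb _).trans ?_
    rw [mul_assoc, ← Real.exp_add, ← mul_add]
    refine mul_le_mul_of_nonneg_left (Real.exp_le_exp.2 (mul_le_mul_of_nonneg_left ?_ hk)) hC
    refine (pi_norm_le_iff_of_nonneg (by positivity)).2 fun e => ?_
    rcases e with e | e
    · exact (norm_le_pi_norm w1 e).trans (by linarith [norm_nonneg w2])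
    · exact (norm_le_pi_norm w2 e).trans (by linarith [norm_nonneg w1])
  refine (abs_integral_le_integral_abs).trans ?_
  refine (integral_mono_of_nonneg (Filter.Eventually.of_forall fun _ => abs_nonneg _)
    ((hE.integrable).const_mul _) (Filter.Eventually.of_forall h1)).trans ?_
  rw [integral_const_mul]
  exact le_of_eq (by ring)

/-- joint functions of two positions -/
lemma eg_two {α : Type} [Fintype α] {Φ : (κ → ℝ) → (κ → ℝ) → ℝ}
    (hΦ : EG fun w : κ ⊕ κ → ℝ => Φ (fun e => w (Sum.inl e)) (fun e => w (Sum.inr e)))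
    {A B : (α → ℝ) → κ → ℝ} (hA : Measurable A) (hB : Measurable B) {c a0 : ℝ} (hc : 0 ≤ c)
    (h0 : 0 ≤ a0) (hAb : ∀ w, ‖A w‖ ≤ a0 + c * ‖w‖) (hBb : ∀ w, ‖B w‖ ≤ a0 + c * ‖w‖) :
    EG fun w => Φ (A w) (B w) := by
  obtain ⟨C, k, hC, hk, h⟩ := hΦ.bdd
  have hm : Measurable fun w => (Sum.elim (A w) (B w) : κ ⊕ κ → ℝ) := by
    refine measurable_pi_lambda _ fun e => ?_
    rcases e with e | e
    · exact (measurable_pi_apply e).comp hA
    · exact (measurable_pi_apply e).comp hB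
  refine ⟨hΦ.meas.comp hm, C * Real.exp (k * a0), k * c, by positivity, by positivity,
    fun w => (h (Sum.elim (A w) (B w))).trans ?_⟩
  rw [mul_assoc, ← Real.exp_add]
  refine mul_le_mul_of_nonneg_left (Real.exp_le_exp.2 ?_) hC
  have : ‖(Sum.elim (A w) (B w) : κ ⊕ κ → ℝ)‖ ≤ a0 + c * ‖w‖ := by
    refine (pi_norm_le_iff_of_nonneg (by positivity)).2 fun e => ?_
    rcases e with e | e
    · exact (norm_le_pi_norm (A w) e).trans (hAb w)
    · exact (norm_le_pi_norm (B w) e).trans (hBb w)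
  nlinarith [mul_le_mul_of_nonneg_left this hk]

/-! ### the law of the positions of a set of couplings -/

lemma int_K4 {G : (K4 κ → ℝ) → ℝ} (hG : EG G) :
    ∫ w, G w ∂(gI (K4 κ)) = ∫ y0, (∫ y1, (∫ y2, (∫ y3,
      G (Sum.elim y0 (Sum.elim y1 (Sum.elim y2 y3))) ∂(gI κ)) ∂(gI κ)) ∂(gI κ)) ∂(gI κ) := by
  rw [int_sum hG]
  refine integral_congr_ae (Filter.Eventually.of_forall fun y0 => ?_)
  exact int_K3 (eg_elim hG y0)

/-- three Gaussian steps are one -/
lemma int_three {f : (κ → ℝ) → ℝ} (hf : EG f) (h0 : 0 ≤ t0) (h01 : t0 ≤ t1) (h1 : t1 ≤ s1) :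
    ∫ y0, (∫ y1, (∫ y2, f (√t0 • y0 + √(t1 - t0) • y1 + √(s1 - t1) • y2) ∂(gI κ)) ∂(gI κ))
      ∂(gI κ) = ∫ g, f (√s1 • g) ∂(gI κ) := by
  have e1 : ∀ y0 : κ → ℝ, ∫ y1, (∫ y2, f (√t0 • y0 + √(t1 - t0) • y1 + √(s1 - t1) • y2) ∂(gI κ))
      ∂(gI κ) = ∫ y, f (√t0 • y0 + √(s1 - t0) • y) ∂(gI κ) := fun y0 =>
    gI_rot hf (a := √(t1 - t0)) (b := √(s1 - t1)) (c := √(s1 - t0)) (by
      rw [Real.sq_sqrt (by linarith), Real.sq_sqrt (by linarith), Real.sq_sqrt (by linarith)]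
      ring) (√t0 • y0)
  simp_rw [e1]
  have h3 := gI_rot hf (a := √t0) (b := √(s1 - t0)) (c := √s1) (by
      rw [Real.sq_sqrt h0, Real.sq_sqrt (by linarith), Real.sq_sqrt (by linarith)]
      ring) 0
  simpa only [zero_add] using h3

lemma norm_smul_le' {α : Type} [Fintype α] {c : ℝ} (hc : 0 ≤ c) (w : α → ℝ) :
    ‖c • w‖ ≤ c * ‖w‖ := by
  rw [norm_smul, Real.norm_eq_abs, abs_of_nonneg hc]

/-- **The joint law of the positions at the times `s1`, `s2`.** -/
theorem int_p23 {Φ : (κ → ℝ) → (κ → ℝ) → ℝ}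
    (hΦ : EG fun w : κ ⊕ κ → ℝ => Φ (fun e => w (Sum.inl e)) (fun e => w (Sum.inr e)))
    (h0 : 0 ≤ t0) (h01 : t0 ≤ t1) (h1 : t1 ≤ s1) :
    ∫ w : K4 κ → ℝ, Φ (p2 t0 t1 s1 w) (p3 t0 t1 s1 s2 w) ∂(gI (K4 κ)) =
      ∫ g, (∫ g', Φ (√s1 • g) (√s1 • g + √(s2 - s1) • g') ∂(gI κ)) ∂(gI κ) := by
  have hG : EG fun w : K4 κ → ℝ => Φ (p2 t0 t1 s1 w) (p3 t0 t1 s1 s2 w) := by
    refine eg_two hΦ (meas_p2 _ _ _) (meas_p3 _ _ _ _)
      (c := √t0 + √(t1 - t0) + √(s1 - t1) + √(s2 - s1)) (a0 := 0) (by positivity) le_rfl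
      (fun w => ?_) fun w => ?_
    · have := norm_p2 t0 t1 s1 w
      have h2 : 0 ≤ √(s2 - s1) * ‖w‖ := by positivity
      linarith
    · have := norm_p3 t0 t1 s1 s2 w
      linarith
  rw [int_K4 hG]
  have hf : EG fun z : κ → ℝ => ∫ g', Φ z (z + √(s2 - s1) • g') ∂(gI κ) := by
    have h2 : EG fun w : κ ⊕ κ → ℝ => Φ (fun e => w (Sum.inl e))
        ((fun e => w (Sum.inl e)) + √(s2 - s1) • fun e => w (Sum.inr e)) := by
      have hl : ∀ w : κ ⊕ κ → ℝ, ‖(fun e => w (Sum.inl e) : κ → ℝ)‖ ≤ ‖w‖ := fun w =>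
        (pi_norm_le_iff_of_nonneg (norm_nonneg _)).2 fun _ => norm_le_pi_norm w _
      have hr : ∀ w : κ ⊕ κ → ℝ, ‖(fun e => w (Sum.inr e) : κ → ℝ)‖ ≤ ‖w‖ := fun w =>
        (pi_norm_le_iff_of_nonneg (norm_nonneg _)).2 fun _ => norm_le_pi_norm w _
      refine eg_two hΦ (by fun_prop) (by fun_prop) (c := 1 + √(s2 - s1)) (a0 := 0)
        (by positivity) le_rfl (fun w => ?_) fun w => ?_
      · have h3 := hl w
        have h4 : 0 ≤ √(s2 - s1) * ‖w‖ := by positivity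
        linarith
      · refine (norm_add_le _ _).trans ?_
        have h3 := hl w
        have h4 := norm_smul_le' (Real.sqrt_nonneg (s2 - s1)) (fun e => w (Sum.inr e) : κ → ℝ)
        have h5 := mul_le_mul_of_nonneg_left (hr w) (Real.sqrt_nonneg (s2 - s1))
        linarith
    exact eg_int h2
  exact int_three hf h0 h01 h1

/-- **The two-time law after averaging over the couplings in `R`.** -/
theorem Av_lf_two {Φ : (κ → ℝ) → (κ → ℝ) → ℝ}
    (hΦ : EG fun w : κ ⊕ κ → ℝ => Φ (fun e => w (Sum.inl e)) (fun e => w (Sum.inr e)))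
    (h0 : 0 ≤ t0) (h01 : t0 ≤ t1) (h1 : t1 ≤ s1) (R : Finset κ) (w : K4 κ → ℝ) :
    Av (lf R) (fun w => Φ (p2 t0 t1 s1 w) (p3 t0 t1 s1 s2 w)) w =
      ∫ g, (∫ g', Φ (sw R (p2 t0 t1 s1 w) (√s1 • g))
        (sw R (p3 t0 t1 s1 s2 w) (√s1 • g + √(s2 - s1) • g')) ∂(gI κ)) ∂(gI κ) := by
  unfold Av
  simp only [p2_sw, p3_sw]
  refine int_p23 (Φ := fun a b => Φ (sw R (p2 t0 t1 s1 w) a) (sw R (p3 t0 t1 s1 s2 w) b))
    ?_ h0 h01 h1
  have ml : ∀ z : κ → ℝ, Measurable fun a : κ → ℝ => sw R z a := fun z => by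
    refine measurable_pi_lambda _ fun e => ?_
    unfold sw
    split_ifs
    · exact measurable_pi_apply e
    · exact measurable_const
  have hl : ∀ w : κ ⊕ κ → ℝ, ‖(fun e => w (Sum.inl e) : κ → ℝ)‖ ≤ ‖w‖ := fun w =>
    (pi_norm_le_iff_of_nonneg (norm_nonneg _)).2 fun _ => norm_le_pi_norm w _
  have hr : ∀ w : κ ⊕ κ → ℝ, ‖(fun e => w (Sum.inr e) : κ → ℝ)‖ ≤ ‖w‖ := fun w =>
    (pi_norm_le_iff_of_nonneg (norm_nonneg _)).2 fun _ => norm_le_pi_norm w _
  refine eg_two hΦ ((ml _).comp (by fun_prop)) ((ml _).comp (by fun_prop)) (c := 1)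
    (a0 := ‖p2 t0 t1 s1 w‖ + ‖p3 t0 t1 s1 s2 w‖) zero_le_one (by positivity)
    (fun u => ?_) fun u => ?_
  · have h2 := norm_sw_le R (p2 t0 t1 s1 w) (fun e => u (Sum.inl e))
    have h3 := hl u
    have h4 := norm_nonneg (p3 t0 t1 s1 s2 w)
    linarith
  · have h2 := norm_sw_le R (p3 t0 t1 s1 s2 w) (fun e => u (Sum.inr e))
    have h3 := hr u
    have h4 := norm_nonneg (p2 t0 t1 s1 w)
    linarith

lemma meas_sw (R : Finset κ) (z : κ → ℝ) : Measurable fun a : κ → ℝ => sw R z a := by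
  refine measurable_pi_lambda _ fun e => ?_
  unfold sw
  split_ifs
  · exact measurable_pi_apply e
  · exact measurable_const

lemma eg_sw {f : (κ → ℝ) → ℝ} (hf : EG f) (R : Finset κ) (z : κ → ℝ) :
    EG fun a => f (sw R z a) := by
  obtain ⟨C, k, hC, hk, h⟩ := hf.bdd
  refine ⟨hf.meas.comp (meas_sw R z), C * Real.exp (k * ‖z‖), k, by positivity, hk,
    fun a => (h _).trans ?_⟩
  rw [mul_assoc, ← Real.exp_add]
  refine mul_le_mul_of_nonneg_left (Real.exp_le_exp.2 ?_) hC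
  nlinarith [mul_le_mul_of_nonneg_left (norm_sw_le R z a) hk]

section one

variable {f : (κ → ℝ) → ℝ}

lemma Av_lf_3 (hf : EG f) (h0 : 0 ≤ t0) (h01 : t0 ≤ t1) (h1 : t1 ≤ s1) (h2 : s1 ≤ s2)
    (R : Finset κ) (w : K4 κ → ℝ) :
    Av (lf R) (fun w => f (p3 t0 t1 s1 s2 w)) w = AvP s2 R f (p3 t0 t1 s1 s2 w) := by
  have h3 : EG fun w : κ ⊕ κ → ℝ => f (fun e => w (Sum.inr e)) :=
    eg_comp hf (A := fun w : κ ⊕ κ → ℝ => fun e => w (Sum.inr e)) (by fun_prop) zero_le_one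
      fun w => by
        rw [one_mul]
        exact (pi_norm_le_iff_of_nonneg (norm_nonneg _)).2 fun _ => norm_le_pi_norm w _
  rw [Av_lf_two (Φ := fun _ b => f b) h3 h0 h01 h1 R w]
  have h4 := gI_rot (eg_sw hf R (p3 t0 t1 s1 s2 w)) (a := √s1) (b := √(s2 - s1)) (c := √s2) (by
    rw [Real.sq_sqrt (by linarith), Real.sq_sqrt (by linarith), Real.sq_sqrt (by linarith)]
    ring) 0
  simp only [zero_add] at h4
  exact h4

lemma Av_lf_2 (hf : EG f) (h0 : 0 ≤ t0) (h01 : t0 ≤ t1) (h1 : t1 ≤ s1)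
    (R : Finset κ) (w : K4 κ → ℝ) :
    Av (lf R) (fun w => f (p2 t0 t1 s1 w)) w = AvP s1 R f (p2 t0 t1 s1 w) := by
  have h3 : EG fun w : κ ⊕ κ → ℝ => f (fun e => w (Sum.inl e)) :=
    eg_comp hf (A := fun w : κ ⊕ κ → ℝ => fun e => w (Sum.inl e)) (by fun_prop) zero_le_one
      fun w => by
        rw [one_mul]
        exact (pi_norm_le_iff_of_nonneg (norm_nonneg _)).2 fun _ => norm_le_pi_norm w _
  rw [Av_lf_two (Φ := fun a _ => f a) (s2 := s1) h3 h0 h01 h1 R w]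
  simp only [integral_const, probReal_univ, smul_eq_mul, one_mul]
  rfl

lemma p0_elim (y0 : κ → ℝ) (y : K3 κ → ℝ) : p0 t0 (Sum.elim y0 y) = √t0 • y0 := rfl

lemma p1_elim (y0 y1 : κ → ℝ) (y : κ ⊕ κ → ℝ) :
    p1 t0 t1 (Sum.elim y0 (Sum.elim y1 y)) = √t0 • y0 + √(t1 - t0) • y1 := rfl

lemma Av_lf_0 (hf : EG f) (R : Finset κ) (w : K4 κ → ℝ) :
    Av (lf R) (fun w => f (p0 t0 w)) w = AvP t0 R f (p0 t0 w) := by
  unfold Av AvP
  simp only [p0_sw]
  have hG : EG fun u : K4 κ → ℝ => f (sw R (p0 t0 w) (p0 t0 u)) :=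
    eg_comp (eg_sw hf R (p0 t0 w)) (A := fun u : K4 κ → ℝ => p0 t0 u) (meas_p0 t0)
      (Real.sqrt_nonneg t0) (norm_p0 t0)
  rw [int_K4 hG]
  refine integral_congr_ae (Filter.Eventually.of_forall fun y0 => ?_)
  simp only [p0_elim, integral_const, probReal_univ, one_smul]

lemma Av_lf_1 (hf : EG f) (h0 : 0 ≤ t0) (h01 : t0 ≤ t1) (R : Finset κ) (w : K4 κ → ℝ) :
    Av (lf R) (fun w => f (p1 t0 t1 w)) w = AvP t1 R f (p1 t0 t1 w) := by
  unfold Av AvP
  simp only [p1_sw]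
  have hG : EG fun u : K4 κ → ℝ => f (sw R (p1 t0 t1 w) (p1 t0 t1 u)) :=
    eg_comp (eg_sw hf R (p1 t0 t1 w)) (A := fun u : K4 κ → ℝ => p1 t0 t1 u) (meas_p1 t0 t1)
      (by positivity) (norm_p1 t0 t1)
  rw [int_K4 hG]
  have h4 := gI_rot (eg_sw hf R (p1 t0 t1 w)) (a := √t0) (b := √(t1 - t0)) (c := √t1) (by
    rw [Real.sq_sqrt h0, Real.sq_sqrt (by linarith), Real.sq_sqrt (by linarith)]
    ring) 0
  simp only [zero_add] at h4
  rw [← h4]
  refine integral_congr_ae (Filter.Eventually.of_forall fun y0 => ?_)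
  refine integral_congr_ae (Filter.Eventually.of_forall fun y1 => ?_)
  simp only [p1_elim, integral_const, probReal_univ, one_smul]

end one

/-! ### the calculus of `AvP` -/

section avp

variable {f φ g : (κ → ℝ) → ℝ}

lemma eg_AvP_in (hf : EG f) (s : ℝ) (R : Finset κ) (z : κ → ℝ) :
    EG fun g : κ → ℝ => f (sw R z (√s • g)) :=
  eg_comp (eg_sw hf R z) (A := fun g : κ → ℝ => √s • g) (by fun_prop) (Real.sqrt_nonneg s)
    fun w => norm_smul_le' (Real.sqrt_nonneg s) w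

lemma eg_AvP (hf : EG f) (s : ℝ) (R : Finset κ) : EG (AvP s R f) := by
  have h1 : EG fun w : κ ⊕ κ → ℝ =>
      f (sw R (fun e => w (Sum.inl e)) (√s • fun e => w (Sum.inr e))) := by
    refine eg_comp hf (A := fun w : κ ⊕ κ → ℝ =>
      sw R (fun e => w (Sum.inl e)) (√s • fun e => w (Sum.inr e))) ?_ (c := 1 + √s)
      (by positivity) fun w => ?_
    · refine measurable_pi_lambda _ fun e => ?_
      unfold sw
      split_ifs
      · simp only [Pi.smul_apply]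
        fun_prop
      · fun_prop
    · refine (norm_sw_le _ _ _).trans ?_
      have h3 : ‖(fun e => w (Sum.inl e) : κ → ℝ)‖ ≤ ‖w‖ :=
        (pi_norm_le_iff_of_nonneg (norm_nonneg _)).2 fun _ => norm_le_pi_norm w _
      have h4 : ‖(fun e => w (Sum.inr e) : κ → ℝ)‖ ≤ ‖w‖ :=
        (pi_norm_le_iff_of_nonneg (norm_nonneg _)).2 fun _ => norm_le_pi_norm w _
      have h5 := norm_smul_le' (Real.sqrt_nonneg s) (fun e => w (Sum.inr e) : κ → ℝ)
      have h6 := mul_le_mul_of_nonneg_left h4 (Real.sqrt_nonneg s)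
      linarith
  exact eg_int h1

lemma ind_AvP (s : ℝ) (R : Finset κ) (f : (κ → ℝ) → ℝ) : Ind R (AvP s R f) := by
  intro z w
  unfold AvP
  simp only [sw_sw]

lemma AvP_mul (hφ : Ind R φ) (f : (κ → ℝ) → ℝ) (z : κ → ℝ) :
    AvP s R (fun z => φ z * f z) z = φ z * AvP s R f z := by
  unfold AvP
  have : ∀ g : κ → ℝ, φ (sw R z (√s • g)) = φ z := fun g => hφ z _
  simp only [this]
  rw [integral_const_mul]

lemma AvP_ind (h : Ind R f) (z : κ → ℝ) : AvP s R f z = f z := by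
  unfold AvP
  have : ∀ g : κ → ℝ, f (sw R z (√s • g)) = f z := fun g => h z _
  simp only [this, integral_const, probReal_univ, one_smul]

lemma AvP_const (c : ℝ) (z : κ → ℝ) : AvP s R (fun _ => c) z = c := by
  unfold AvP
  simp only [integral_const, probReal_univ, one_smul]

lemma AvP_const_mul (c : ℝ) (f : (κ → ℝ) → ℝ) (z : κ → ℝ) :
    AvP s R (fun z => c * f z) z = c * AvP s R f z := by
  unfold AvP
  rw [integral_const_mul]

lemma AvP_add (hf : EG f) (hg : EG g) (z : κ → ℝ) :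
    AvP s R (fun z => f z + g z) z = AvP s R f z + AvP s R g z := by
  unfold AvP
  exact integral_add (eg_AvP_in hf s R z).integrable (eg_AvP_in hg s R z).integrable

lemma AvP_sub (hf : EG f) (hg : EG g) (z : κ → ℝ) :
    AvP s R (fun z => f z - g z) z = AvP s R f z - AvP s R g z := by
  unfold AvP
  exact integral_sub (eg_AvP_in hf s R z).integrable (eg_AvP_in hg s R z).integrable

lemma AvP_sum {ι : Type} (S : Finset ι) {f : ι → (κ → ℝ) → ℝ} (hf : ∀ i ∈ S, EG (f i))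
    (z : κ → ℝ) : AvP s R (fun z => ∑ i ∈ S, f i z) z = ∑ i ∈ S, AvP s R (f i) z := by
  unfold AvP
  exact integral_finsetSum S fun i hi => (eg_AvP_in (hf i hi) s R z).integrable

lemma AvP_mono (hf : EG f) (hg : EG g) (h : ∀ z, f z ≤ g z) (z : κ → ℝ) :
    AvP s R f z ≤ AvP s R g z :=
  integral_mono (eg_AvP_in hf s R z).integrable (eg_AvP_in hg s R z).integrable fun _ => h _

lemma AvP_nonneg (h : ∀ z, 0 ≤ f z) (z : κ → ℝ) : 0 ≤ AvP s R f z :=
  integral_nonneg fun _ => h _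

lemma AvP_sq_le (hf : EG f) (z : κ → ℝ) : AvP s R f z ^ 2 ≤ AvP s R (fun z => f z ^ 2) z := by
  have h1 := AvP_nonneg (s := s) (R := R) (f := fun u => (f u - AvP s R f z) ^ 2)
    (fun _ => sq_nonneg _) z
  have e : (fun u => (f u - AvP s R f z) ^ 2) =
      fun u => (f u ^ 2 + (-2 * AvP s R f z) * f u) + AvP s R f z ^ 2 := by
    funext u; ring
  rw [e, AvP_add ((hf.pow 2).add (hf.const_mul _)) (EG.const _), AvP_add (hf.pow 2)
    (hf.const_mul _), AvP_const_mul, AvP_const] at h1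
  linarith

/-- averages over two sets -/
lemma AvP_AvP (hf : EG f) (z : κ → ℝ) : AvP s R (AvP s R' f) z = AvP s (R ∪ R') f z := by
  have h1 := integral_Av R' (eg_AvP_in hf s (R ∪ R') z)
  have e : ∀ w w' : κ → ℝ, sw R' (sw R z (√s • w)) (√s • w') =
      sw (R ∪ R') z (√s • sw R' w w') := by
    intro w w'
    funext e
    by_cases h : e ∈ R <;> by_cases h' : e ∈ R' <;> simp [sw, h, h']
  unfold AvP
  simp only [e]
  exact h1

lemma AvP_comm (hf : EG f) (z : κ → ℝ) :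
    AvP s R (AvP s R' f) z = AvP s R' (AvP s R f) z := by
  rw [AvP_AvP hf, AvP_AvP hf, Finset.union_comm]

lemma AvP_union_ind (hf : EG f) (h : Ind R' f) (z : κ → ℝ) :
    AvP s (R ∪ R') f z = AvP s R f z := by
  rw [← AvP_AvP hf]
  have : AvP s R' f = f := by
    funext u
    exact AvP_ind h u
  rw [this]

lemma ind_sw_union {R R' : Finset κ} {f : (κ → ℝ) → ℝ} (h : Ind R' f) (z w : κ → ℝ) :
    f (sw (R ∪ R') z w) = f (sw R z w) := by
  have e : sw (R ∪ R') z w = sw R' (sw R z w) w := by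
    funext e
    by_cases h1 : e ∈ R <;> by_cases h2 : e ∈ R' <;> simp [sw, h1, h2]
  rw [e, h]

end avp

/-! ### the row model -/

/-- marginals of `gI` -/
lemma mp_inj {α β : Type} [Fintype α] [Fintype β] {φ : α → β} (hφ : Function.Injective φ) :
    MeasurePreserving (fun w : β → ℝ => fun a => w (φ a)) (gI β) (gI α) := by
  classical
  refine ⟨by fun_prop, ?_⟩
  refine (Measure.pi_eq fun S hS => ?_).symm
  rw [Measure.map_apply (by fun_prop) (MeasurableSet.univ_pi hS)]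
  have h1 : (fun w : β → ℝ => fun a => w (φ a)) ⁻¹' (Set.univ.pi S) =
      Set.univ.pi (fun b => if h : ∃ a, φ a = b then S h.choose else Set.univ) := by
    ext w
    simp only [Set.mem_preimage, Set.mem_pi, Set.mem_univ, true_implies]
    constructor
    · intro h b
      split_ifs with hb
      · have := h hb.choose
        rwa [hb.choose_spec] at this
      · trivial
    · intro h a
      have h2 := h (φ a)
      have hb : ∃ a', φ a' = φ a := ⟨a, rfl⟩
      rw [dif_pos hb] at h2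
      rwa [hφ hb.choose_spec] at h2
  rw [h1, Measure.pi_pi]
  symm
  refine Fintype.prod_of_injective φ hφ _ _ (fun b hb => ?_) fun a => ?_
  · have hb' : ¬ ∃ a, φ a = b := hb
    rw [dif_neg hb']
    exact measure_univ
  · have hb : ∃ a', φ a' = φ a := ⟨a, rfl⟩
    rw [dif_pos hb, hφ hb.choose_spec]

lemma int_inj {α β : Type} [Fintype α] [Fintype β] {φ : α → β} (hφ : Function.Injective φ)
    {f : (α → ℝ) → ℝ} (hf : Measurable f) :
    ∫ w : β → ℝ, f (fun a => w (φ a)) ∂(gI β) = ∫ u, f u ∂(gI α) := by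
  have h := mp_inj hφ
  rw [← h.map_eq, integral_map h.measurable.aemeasurable]
  rw [h.map_eq]
  exact hf.aestronglyMeasurable

section row

open Vale.Agent.P146.H325 Vale.Agent.P146.H332

variable {n : ℕ} {b : Fin n}

/-- the couplings of the row `b`, as a type -/
abbrev Rw (b : Fin n) : Type := {e : Pair n // e ∈ row b}

lemma oth_inj (b : Fin n) : Function.Injective fun e : Rw b => oth b e.1 := by
  intro e e' h
  have h' : oth b e.1 = oth b e'.1 := h
  apply Subtype.ext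
  rw [← cp_oth e.2, ← cp_oth e'.2]
  have : ∀ (l l' : Fin n) (hl : l ≠ b) (hl' : l' ≠ b), l = l' → cp b l hl = cp b l' hl' := by
    intro l l' hl hl' e
    subst e
    rfl
  exact this _ _ _ _ h'

lemma norm_put_le (b : Fin n) (y : Fin n → ℝ) (z : Pair n → ℝ) : ‖put b y z‖ ≤ ‖z‖ + ‖y‖ := by
  refine (pi_norm_le_iff_of_nonneg (by positivity)).2 fun e => ?_
  unfold put
  split_ifs
  · exact (norm_le_pi_norm y _).trans (by linarith [norm_nonneg z])
  · exact (norm_le_pi_norm z e).trans (by linarith [norm_nonneg y])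

lemma meas_put (b : Fin n) (z : Pair n → ℝ) : Measurable fun y : Fin n → ℝ => put b y z := by
  refine measurable_pi_lambda _ fun e => ?_
  unfold put
  split_ifs
  · exact measurable_pi_apply _
  · exact measurable_const

lemma eg_put {f : (Pair n → ℝ) → ℝ} (hf : EG f) (b : Fin n) (z : Pair n → ℝ) :
    EG fun y => f (put b y z) := by
  obtain ⟨C, k, hC, hk, h⟩ := hf.bdd
  refine ⟨hf.meas.comp (meas_put b z), C * Real.exp (k * ‖z‖), k, by positivity, hk,
    fun a => (h _).trans ?_⟩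
  rw [mul_assoc, ← Real.exp_add]
  refine mul_le_mul_of_nonneg_left (Real.exp_le_exp.2 ?_) hC
  nlinarith [mul_le_mul_of_nonneg_left (norm_put_le b a z) hk]

/-- extension of a row by `z` -/
def ex (z : Pair n → ℝ) (u : Rw b → ℝ) : Pair n → ℝ := fun e => if h : e ∈ row b then u ⟨e, h⟩ else z e

lemma sw_ex (z g : Pair n → ℝ) : sw (row b) z g = ex z fun e : Rw b => g e.1 := by
  funext e
  by_cases h : e ∈ row b <;> simp [sw, ex, h]

lemma put_ex (z : Pair n → ℝ) (y : Fin n → ℝ) : put b y z = ex z fun e : Rw b => y (oth b e.1) := by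
  funext e
  by_cases h : e ∈ row b <;> simp [put, ex, h]

lemma meas_ex (z : Pair n → ℝ) : Measurable fun u : Rw b → ℝ => ex z u := by
  refine measurable_pi_lambda _ fun e => ?_
  unfold ex
  split_ifs
  · exact measurable_pi_apply _
  · exact measurable_const

lemma norm_ex_le (z : Pair n → ℝ) (u : Rw b → ℝ) : ‖ex z u‖ ≤ ‖z‖ + ‖u‖ := by
  refine (pi_norm_le_iff_of_nonneg (by positivity)).2 fun e => ?_
  unfold ex
  split_ifs with h
  · exact (norm_le_pi_norm u ⟨e, h⟩).trans (by linarith [norm_nonneg z])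
  · exact (norm_le_pi_norm z e).trans (by linarith [norm_nonneg u])

/-- **The row model**, one time. -/
theorem AvP_row {f : (Pair n → ℝ) → ℝ} (hf : EG f) (s : ℝ) (b : Fin n) (z : Pair n → ℝ) :
    AvP s (row b) f z = ∫ y : Fin n → ℝ, f (put b (√s • y) z) ∂(gI (Fin n)) := by
  have hm : Measurable fun u : Rw b → ℝ => f (ex z (√s • u)) :=
    hf.meas.comp ((meas_ex z).comp (by fun_prop))
  have h1 := int_inj (φ := fun e : Rw b => e.1) Subtype.val_injective hm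
  have h2 := int_inj (φ := fun e : Rw b => oth b e.1) (oth_inj b) hm
  unfold AvP
  simp only [sw_ex, put_ex]
  exact h1.trans h2.symm

/-- **The row model**, two times. -/
theorem int_row_two {Φ : (Pair n → ℝ) → (Pair n → ℝ) → ℝ}
    (hΦ : EG fun w : Pair n ⊕ Pair n → ℝ => Φ (fun e => w (Sum.inl e)) (fun e => w (Sum.inr e)))
    (a c d : ℝ) (b : Fin n) (z z' : Pair n → ℝ) :
    ∫ g, (∫ g', Φ (sw (row b) z (a • g)) (sw (row b) z' (c • g + d • g')) ∂(gI (Pair n)))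
      ∂(gI (Pair n)) =
      ∫ y, (∫ y', Φ (put b (a • y) z) (put b (c • y + d • y') z') ∂(gI (Fin n)))
        ∂(gI (Fin n)) := by
  have hG : EG fun w : Rw b ⊕ Rw b → ℝ => Φ (ex z (a • fun e => w (Sum.inl e)))
      (ex z' ((c • fun e => w (Sum.inl e)) + d • fun e => w (Sum.inr e))) := by
    have hl : ∀ w : Rw b ⊕ Rw b → ℝ, ‖(fun e => w (Sum.inl e) : Rw b → ℝ)‖ ≤ ‖w‖ := fun w =>
      (pi_norm_le_iff_of_nonneg (norm_nonneg _)).2 fun _ => norm_le_pi_norm w _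
    have hr : ∀ w : Rw b ⊕ Rw b → ℝ, ‖(fun e => w (Sum.inr e) : Rw b → ℝ)‖ ≤ ‖w‖ := fun w =>
      (pi_norm_le_iff_of_nonneg (norm_nonneg _)).2 fun _ => norm_le_pi_norm w _
    have hs : ∀ (c : ℝ) (w : Rw b → ℝ), ‖c • w‖ = |c| * ‖w‖ := fun c w => by
      rw [norm_smul, Real.norm_eq_abs]
    refine eg_two hΦ ((meas_ex z).comp (by fun_prop)) ((meas_ex z').comp (by fun_prop))
      (c := |a| + |c| + |d|) (a0 := ‖z‖ + ‖z'‖) (by positivity) (by positivity)
      (fun w => ?_) fun w => ?_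
    · refine (norm_ex_le _ _).trans ?_
      rw [hs]
      have h1 := mul_le_mul_of_nonneg_left (hl w) (abs_nonneg a)
      have h2 : 0 ≤ |c| * ‖w‖ := by positivity
      have h3 : 0 ≤ |d| * ‖w‖ := by positivity
      linarith [norm_nonneg z']
    · refine (norm_ex_le _ _).trans ?_
      have h0 := norm_add_le (c • fun e => w (Sum.inl e) : Rw b → ℝ) (d • fun e => w (Sum.inr e))
      rw [hs, hs] at h0
      have h1 := mul_le_mul_of_nonneg_left (hl w) (abs_nonneg c)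
      have h2 := mul_le_mul_of_nonneg_left (hr w) (abs_nonneg d)
      have h3 : 0 ≤ |a| * ‖w‖ := by positivity
      linarith [norm_nonneg z]
  have hin : ∀ u : Rw b → ℝ, Measurable fun u' : Rw b → ℝ =>
      Φ (ex z (a • u)) (ex z' (c • u + d • u')) := fun u => (eg_elim hG u).meas
  have hout : Measurable fun u : Rw b → ℝ =>
      ∫ u', Φ (ex z (a • u)) (ex z' (c • u + d • u')) ∂(gI (Rw b)) := (eg_int hG).meas
  have key : ∀ (β : Type) [Fintype β] (φ : Rw b → β), Function.Injective φ →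
      ∫ g : β → ℝ, (∫ g' : β → ℝ, Φ (ex z (a • fun e => g (φ e)))
        (ex z' ((c • fun e => g (φ e)) + d • fun e => g' (φ e))) ∂(gI β)) ∂(gI β) =
      ∫ u : Rw b → ℝ, (∫ u', Φ (ex z (a • u)) (ex z' (c • u + d • u')) ∂(gI (Rw b)))
        ∂(gI (Rw b)) := by
    intro β _ φ hφ
    rw [← int_inj hφ hout]
    refine integral_congr_ae (Filter.Eventually.of_forall fun g => ?_)
    exact int_inj hφ (hin fun e => g (φ e))
  simp only [sw_ex, put_ex]
  exact (key (Pair n) _ Subtype.val_injective).trans (key (Fin n) _ (oth_inj b)).symm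

/-- the two-time law of the row `b` -/
theorem Av_lf_row {Φ : (Pair n → ℝ) → (Pair n → ℝ) → ℝ}
    (hΦ : EG fun w : Pair n ⊕ Pair n → ℝ => Φ (fun e => w (Sum.inl e)) (fun e => w (Sum.inr e)))
    (h0 : 0 ≤ t0) (h01 : t0 ≤ t1) (h1 : t1 ≤ s1) (b : Fin n) (w : K4 (Pair n) → ℝ) :
    Av (lf (row b)) (fun w => Φ (p2 t0 t1 s1 w) (p3 t0 t1 s1 s2 w)) w =
      ∫ y, (∫ y', Φ (put b (√s1 • y) (p2 t0 t1 s1 w))
        (put b (√s1 • y + √(s2 - s1) • y') (p3 t0 t1 s1 s2 w)) ∂(gI (Fin n))) ∂(gI (Fin n)) := by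
  rw [Av_lf_two hΦ h0 h01 h1, int_row_two hΦ]

end row

/-! ### the same with the parameters `q : Par` -/

section par

variable {q : Par}

theorem Av_lf_P23 (hq : q.Ok) {Φ : (κ → ℝ) → (κ → ℝ) → ℝ}
    (hΦ : EG fun w : κ ⊕ κ → ℝ => Φ (fun e => w (Sum.inl e)) (fun e => w (Sum.inr e)))
    (R : Finset κ) (w : K4 κ → ℝ) :
    Av (lf R) (fun w => Φ (P2 q w) (P3 q w)) w =
      ∫ g, (∫ g', Φ (sw R (P2 q w) (√q.s1 • g))
        (sw R (P3 q w) (√q.s1 • g + √(q.s2 - q.s1) • g')) ∂(gI κ)) ∂(gI κ) :=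
  Av_lf_two hΦ hq.h0 hq.h01 hq.h1 R w

variable {f : (κ → ℝ) → ℝ}

lemma Av_lf_P0 (hf : EG f) (R : Finset κ) (w : K4 κ → ℝ) :
    Av (lf R) (fun w => f (P0 q w)) w = AvP q.t0 R f (P0 q w) := Av_lf_0 hf R w

lemma Av_lf_P1 (hq : q.Ok) (hf : EG f) (R : Finset κ) (w : K4 κ → ℝ) :
    Av (lf R) (fun w => f (P1 q w)) w = AvP q.t1 R f (P1 q w) := Av_lf_1 hf hq.h0 hq.h01 R w

lemma Av_lf_P2 (hq : q.Ok) (hf : EG f) (R : Finset κ) (w : K4 κ → ℝ) :
    Av (lf R) (fun w => f (P2 q w)) w = AvP q.s1 R f (P2 q w) :=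
  Av_lf_2 hf hq.h0 hq.h01 hq.h1 R w

lemma Av_lf_P3 (hq : q.Ok) (hf : EG f) (R : Finset κ) (w : K4 κ → ℝ) :
    Av (lf R) (fun w => f (P3 q w)) w = AvP q.s2 R f (P3 q w) :=
  Av_lf_3 hf hq.h0 hq.h01 hq.h1 hq.h12 R w

open Vale.Agent.P146.H325 Vale.Agent.P146.H332 in
theorem Av_lf_P23_row {n : ℕ} (hq : q.Ok) {Φ : (Pair n → ℝ) → (Pair n → ℝ) → ℝ}
    (hΦ : EG fun w : Pair n ⊕ Pair n → ℝ => Φ (fun e => w (Sum.inl e)) (fun e => w (Sum.inr e)))
    (b : Fin n) (w : K4 (Pair n) → ℝ) :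
    Av (lf (row b)) (fun w => Φ (P2 q w) (P3 q w)) w =
      ∫ y, (∫ y', Φ (put b (√q.s1 • y) (P2 q w))
        (put b (√q.s1 • y + √(q.s2 - q.s1) • y') (P3 q w)) ∂(gI (Fin n))) ∂(gI (Fin n)) :=
  Av_lf_row hΦ hq.h0 hq.h01 hq.h1 b w

/-- joint growth of a product of functions of the two positions -/
lemma eg_prod {f g : (κ → ℝ) → ℝ} (hf : EG f) (hg : EG g) :
    EG fun w : κ ⊕ κ → ℝ => f (fun e => w (Sum.inl e)) * g (fun e => w (Sum.inr e)) := by
  refine EG.mul ?_ ?_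
  · exact eg_comp hf (A := fun w : κ ⊕ κ → ℝ => fun e => w (Sum.inl e)) (by fun_prop)
      zero_le_one fun w => by
        rw [one_mul]
        exact (pi_norm_le_iff_of_nonneg (norm_nonneg _)).2 fun _ => norm_le_pi_norm w _
  · exact eg_comp hg (A := fun w : κ ⊕ κ → ℝ => fun e => w (Sum.inr e)) (by fun_prop)
      zero_le_one fun w => by
        rw [one_mul]
        exact (pi_norm_le_iff_of_nonneg (norm_nonneg _)).2 fun _ => norm_le_pi_norm w _

end par

end Vale.Agent.P146.R1C
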