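import Vale.Agent.P146.H826.Kab1

set_option linter.all false

/-!
The fourth derivative in the external field of the free energy of a system with one more spin: if the
covariance of the row at each level is a constant up to the gauge, it is at most a negative constant.
-/

open MeasureTheory ProbabilityTheory Filter Topology

namespace Vale.Agent.P146.H826

open Vale.Agent.P157 Vale.Agent.P157.Lv Vale.Agent.P157.Lv.Sy
open Vale.Agent.P157.Par (Path Exponents incr incr_zero_def incr_succ_def cascade gstep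
  cascade_succ_def)
open Vale.Agent.P146.Gap (lc BPath)
open Vale.Agent.P146.H784 Vale.Agent.P146.R3.H501.Tr
open Vale.Agent.P146.Ub (cv)

section main

variable {ι ρ Y : Type} [Fintype ι] [DecidableEq ι] [Fintype ρ] [DecidableEq ρ]
  [Fintype Y] [DecidableEq Y] [Nonempty Y] {S0 : Sy ι Y} {lr : ρ → ℕ} {α : Y → ρ → ℝ}
  {s X : Y → ℝ} {r : ℕ → ℝ} {b v0 : ℝ}

lemma SI_ah (θ h : ℝ) : SI S0 lr α s r θ h =
    ah (SI S0 lr α s r θ 0) (fun x => sgn x.2 * s x.1) h := by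
  unfold ah ad SI Sf Sb Sy.wH
  congr 1
  funext z x
  show S0.H (fun e => z (Sum.inl (Sum.inl e))) x.1 + sgn x.2 * (lin (fun e =>
      Real.sin θ * gR S0.K α x.1 e + Real.cos θ * gT S0.K s r x.1 e) z + h * s x.1) =
    S0.H (fun e => z (Sum.inl (Sum.inl e))) x.1 + sgn x.2 * (lin (fun e =>
      Real.sin θ * gR S0.K α x.1 e + Real.cos θ * gT S0.K s r x.1 e) z + 0 * s x.1) +
      h * (sgn x.2 * s x.1)
  ring

lemma SI_reg (hS : S0.Reg) (hlr : ∀ i, lr i ≤ S0.K) (θ h : ℝ) : (SI S0 lr α s r θ h).Reg :=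
  Sf_reg hS (emb3 hS hlr) _ _

lemma abs_one_of (hs : ∀ y, s y ^ 2 = 1) (y : Y) : |s y| = 1 := by
  have := hs y
  rw [← sq_abs] at this
  nlinarith [abs_nonneg (s y)]

/-- comparison with the cascade -/
theorem kab_s {D : ι → (ι → ℝ) → Y → ℝ} (hS : S0.RegD D) (hlr : ∀ i, lr i ≤ S0.K)
    (hr : Path S0.K r) (h0 : r 0 = 0) (hb : r S0.K ≤ b ^ 2) (hs : ∀ y, s y ^ 2 = 1)
    (hα : ∀ y, ∑ i, α y i ^ 2 = v0) (hv : v0 ≤ b ^ 2) {δ : ℝ} (hδ : 0 < δ) (hδ1 : δ ≤ 1 / 2) :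
    |iteratedDeriv 4 (fun h => (SR S0 lr α s h).fe) 0 -
      iteratedDeriv 4 (cascade S0.m r S0.K lc) 0| ≤
      16 * (Real.pi / 4 * (Real.exp (2 * b ^ 2 + 2) * eK S0 lr α s r)) / δ ^ 4 + 144 * 270 * δ := by
  have hQ : (SQ S0 lr α).Reg := SR_reg hS.toReg hlr α _ _
  have hQ' : (SI S0 lr α s r 0 0).Reg := SI_reg hS.toReg hlr 0 0
  have hf : ∀ x : Y × Bool, |sgn x.2 * s x.1| ≤ 1 := by
    intro x
    rw [abs_mul, abs_sgn, abs_one_of hs, one_mul]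
  have key := fe_cmp hQ hQ' (f := fun x => sgn x.2 * s x.1) (f' := fun x => sgn x.2 * s x.1) hf hf
    (c := (v0 - r S0.K) / 2)
    (e := Real.pi / 4 * (Real.exp (2 * b ^ 2 + 2) * eK S0 lr α s r)) hδ (by
      intro h hh
      have hh1 : |h| ≤ 1 := by linarith
      rw [← SR_ah, ← SI_ah]
      have h1 := fe_rot (SB_regD (s := s) hS hlr h) (sepB D α s r)
        (d := v0 - r S0.K) (W := Real.exp (2 * b ^ 2 + 2) * eK S0 lr α s r)
        (fun θ _ _ => bk_le hS hlr hr hb hs hα hv hh1 θ)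
      rw [iS_eq, iS_eq, end_row hS hlr] at h1
      exact h1)
  have e1 : iteratedDeriv 4 (fun h => (SR S0 lr α s h).fe) 0 =
      Dk 3 (SQ S0 lr α) (fun x => sgn x.2 * s x.1) (fun x => sgn x.2 * s x.1) 0 := by
    have e : (fun h => (SR S0 lr α s h).fe) =
        fun h => (ah (SQ S0 lr α) (fun x => sgn x.2 * s x.1) h).fe := by
      funext h
      rw [SR_ah]
    rw [e, it_fe hQ]
  have e2 : iteratedDeriv 4 (cascade S0.m r S0.K lc) 0 =
      Dk 3 (SI S0 lr α s r 0 0) (fun x => sgn x.2 * s x.1) (fun x => sgn x.2 * s x.1) 0 := by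
    rw [← it_casc S0.m r S0.K (S0.fe + Real.log 2) (cascade S0.m r S0.K lc)]
    have e : (fun h => S0.fe + Real.log 2 + cascade S0.m r S0.K lc h) =
        fun h => (ah (SI S0 lr α s r 0 0) (fun x => sgn x.2 * s x.1) h).fe := by
      funext h
      rw [← SI_ah, end_tree hS hlr hr h0 hs]
    rw [e, it_fe hQ']
  rw [e1, e2]
  exact key

/-- the fourth moment of the perturbation -/
lemma SQ_Ex (hS : S0.Reg) (hlr : ∀ i, lr i ≤ S0.K) (hα : ∀ y, ∑ i, α y i ^ 2 = v0)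
    {G : Y → ℝ} (hG : ∀ y, 0 ≤ G y) :
    (SQ S0 lr α).Ex (fun _ x => G x.1) ≤ Real.exp (v0 / 2) * S0.Ex (fun _ y => G y) := by
  unfold SQ
  rw [SR_eq]
  have h := Sf_Ex_le (S := S0) (j := (Sum.inl : ι → ι ⊕ ρ)) (lev' := Sum.elim S0.lev lr)
    (γ := fun y => Sum.elim (fun _ => 0) (α y)) (c := fun _ => 0 * 0) hS (emb_inl hS hlr)
    (fun y i => rfl) (v := v0) (C := 0) (fun y => by
      rw [Fintype.sum_sum_type]
      show ∑ i : ι, (0 : ℝ) ^ 2 + ∑ i, α y i ^ 2 ≤ v0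
      rw [hα]
      simp) (fun y => by simp) hG
  rw [add_zero] at h
  exact h

/-- **the derivative for `X` and for `s`** -/
theorem kab_X (hS : S0.Reg) (hlr : ∀ i, lr i ≤ S0.K) (hs : ∀ y, s y ^ 2 = 1)
    (hα : ∀ y, ∑ i, α y i ^ 2 = v0) {t : ℝ} (ht : 0 < t) :
    |iteratedDeriv 4 (fun h => (SR S0 lr α X h).fe) 0 -
      iteratedDeriv 4 (fun h => (SR S0 lr α s h).fe) 0| ≤
      34 ^ 3 * (((t ^ 3)⁻¹ + 8 * t) * (Real.exp (v0 / 2) *
        S0.Ex (fun _ y => (X y - s y) ^ 4)) + 8 * t) := by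
  have hQ : (SQ S0 lr α).Reg := SR_reg hS hlr α _ _
  have e1 : ∀ X : Y → ℝ, iteratedDeriv 4 (fun h => (SR S0 lr α X h).fe) 0 =
      Dk 3 (SQ S0 lr α) (fun x => sgn x.2 * X x.1) (fun x => sgn x.2 * X x.1) 0 := by
    intro X
    have e : (fun h => (SR S0 lr α X h).fe) =
        fun h => (ah (SQ S0 lr α) (fun x => sgn x.2 * X x.1) h).fe := by
      funext h
      rw [SR_ah]
    rw [e, it_fe hQ]
  rw [e1, e1]
  have hX : ∀ y, |X y| ≤ |X y - s y| + 1 := by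
    intro y
    have h1 := abs_sub_abs_le_abs_sub (X y) (s y)
    rw [abs_one_of hs] at h1
    linarith
  have key := Dk_sub 3 hQ (f := fun x => sgn x.2 * X x.1) (f' := fun x => sgn x.2 * s x.1)
    (g := fun x => sgn x.2 * X x.1) (g' := fun x => sgn x.2 * s x.1)
    (w := fun x => |X x.1 - s x.1|) (u := fun x => |X x.1 - s x.1| + 1) (C := 1) (t := t) 0 rfl ht
    zero_le_one (fun x => abs_nonneg _)
    (fun x => by
      rw [abs_mul, abs_sgn, one_mul]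
      exact hX x.1)
    (fun x => by
      rw [abs_mul, abs_sgn, abs_one_of hs, one_mul]
      linarith [abs_nonneg (X x.1 - s x.1)])
    (fun x => by rw [← mul_sub, abs_mul, abs_sgn, one_mul])
    (fun x => by
      rw [abs_mul, abs_sgn, one_mul, zero_add, pow_one, one_mul]
      exact hX x.1)
    (fun x => by
      rw [abs_mul, abs_sgn, abs_one_of hs, one_mul, zero_add, pow_one, one_mul]
      linarith [abs_nonneg (X x.1 - s x.1)])
    (fun x => by rw [← mul_sub, abs_mul, abs_sgn, one_mul, pow_zero, mul_one, one_mul])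
  refine key.trans ?_
  rw [mul_one]
  refine mul_le_mul_of_nonneg_left ?_ (by positivity)
  have h2 := SQ_Ex hS hlr hα (G := fun y => (X y - s y) ^ 4) (fun y => by positivity)
  have h3 : M4 (SQ S0 lr α) t (fun x => |X x.1 - s x.1|) (fun x => |X x.1 - s x.1| + 1) ≤
      ((t ^ 3)⁻¹ + 8 * t) * (SQ S0 lr α).Ex (fun _ x => (X x.1 - s x.1) ^ 4) + 8 * t := by
    have h4 : (SQ S0 lr α).Ex (fun _ x => ((t ^ 3)⁻¹ + 8 * t) * (X x.1 - s x.1) ^ 4 + 8 * t) =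
        ((t ^ 3)⁻¹ + 8 * t) * (SQ S0 lr α).Ex (fun _ x => (X x.1 - s x.1) ^ 4) + 8 * t := by
      rw [hQ.Ex_add (Nh.snd fun (x : Y × Bool) => ((t ^ 3)⁻¹ + 8 * t) * (X x.1 - s x.1) ^ 4)
        (Nh.snd fun (x : Y × Bool) => 8 * t), Sy.Ex_const_mul, hQ.Ex_const]
    rw [← h4]
    unfold M4
    refine hQ.Ex_mono (Nh.snd fun (x : Y × Bool) => (t ^ 3)⁻¹ * |X x.1 - s x.1| ^ 4 +
      t * (|X x.1 - s x.1| + 1) ^ 4)
      (Nh.snd fun (x : Y × Bool) => ((t ^ 3)⁻¹ + 8 * t) * (X x.1 - s x.1) ^ 4 + 8 * t)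
      fun z x => ?_
    have e2 : (X x.1 - s x.1) ^ 4 = |X x.1 - s x.1| ^ 4 := by
      rw [show (4 : ℕ) = 2 * 2 by norm_num, pow_mul, pow_mul, sq_abs]
    show (t ^ 3)⁻¹ * |X x.1 - s x.1| ^ 4 + t * (|X x.1 - s x.1| + 1) ^ 4 ≤
      ((t ^ 3)⁻¹ + 8 * t) * (X x.1 - s x.1) ^ 4 + 8 * t
    rw [e2]
    generalize |X x.1 - s x.1| = a
    have h5 : (a + 1) ^ 4 ≤ 8 * (a ^ 4 + 1) := by
      have h6 : (a + 1) ^ 2 ≤ 2 * (a ^ 2 + 1) := by nlinarith [sq_nonneg (a - 1)]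
      have h7 : ((a + 1) ^ 2) ^ 2 ≤ (2 * (a ^ 2 + 1)) ^ 2 := pow_le_pow_left₀ (sq_nonneg _) h6 2
      nlinarith [sq_nonneg (a ^ 2 - 1)]
    nlinarith [mul_le_mul_of_nonneg_left h5 ht.le]
  refine h3.trans ?_
  have h6 : 0 ≤ (t ^ 3)⁻¹ + 8 * t := by positivity
  linarith [mul_le_mul_of_nonneg_left h2 h6]

/-- **the bound of the derivative** -/
theorem kab_abs (hS : S0.Reg) (hlr : ∀ i, lr i ≤ S0.K) (hα : ∀ y, ∑ i, α y i ^ 2 = v0)
    (X : Y → ℝ) : |iteratedDeriv 4 (fun h => (SR S0 lr α X h).fe) 0| ≤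
      34 ^ 3 * 2 * (Real.exp (v0 / 2) * S0.Ex (fun _ y => X y ^ 4)) := by
  have hQ : (SQ S0 lr α).Reg := SR_reg hS hlr α _ _
  have e1 : iteratedDeriv 4 (fun h => (SR S0 lr α X h).fe) 0 =
      Dk 3 (SQ S0 lr α) (fun x => sgn x.2 * X x.1) (fun x => sgn x.2 * X x.1) 0 := by
    have e : (fun h => (SR S0 lr α X h).fe) =
        fun h => (ah (SQ S0 lr α) (fun x => sgn x.2 * X x.1) h).fe := by
      funext h
      rw [SR_ah]
    rw [e, it_fe hQ]
  rw [e1]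
  have hz : Dk 3 (SQ S0 lr α) (fun _ => 0) (fun _ => 0) 0 = 0 := by
    have h := abs_Dk 3 hQ (f := fun _ => 0) (g := fun _ => 0) (F := 0) (G := 0)
      (fun _ => by simp) (fun _ => by simp) 0
    rw [zero_mul, mul_zero] at h
    exact abs_eq_zero.1 (le_antisymm h (abs_nonneg _))
  have key := Dk_sub 3 hQ (f := fun x => sgn x.2 * X x.1) (f' := fun _ => 0)
    (g := fun x => sgn x.2 * X x.1) (g' := fun _ => 0)
    (w := fun x => |X x.1|) (u := fun x => |X x.1|) (C := 1) (t := 1) 0 rfl one_pos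
    zero_le_one (fun x => abs_nonneg _)
    (fun x => by rw [abs_mul, abs_sgn, one_mul])
    (fun x => by
      rw [abs_zero]
      exact abs_nonneg _)
    (fun x => by rw [sub_zero, abs_mul, abs_sgn, one_mul])
    (fun x => by rw [abs_mul, abs_sgn, one_mul, zero_add, pow_one, one_mul])
    (fun x => by
      rw [abs_zero, zero_add, pow_one, one_mul]
      exact abs_nonneg _)
    (fun x => by rw [sub_zero, abs_mul, abs_sgn, one_mul, pow_zero, mul_one, one_mul])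
  rw [hz, sub_zero, mul_one] at key
  refine key.trans ?_
  rw [mul_assoc]
  refine mul_le_mul_of_nonneg_left ?_ (by positivity)
  have h2 := SQ_Ex hS hlr hα (G := fun y => X y ^ 4) (fun y => by positivity)
  have h3 : M4 (SQ S0 lr α) 1 (fun x => |X x.1|) (fun x => |X x.1|) =
      2 * (SQ S0 lr α).Ex (fun _ x => X x.1 ^ 4) := by
    rw [← Sy.Ex_const_mul]
    unfold M4
    congr 1
    funext z x
    have e2 : X x.1 ^ 4 = |X x.1| ^ 4 := by
      rw [show (4 : ℕ) = 2 * 2 by norm_num, pow_mul, pow_mul, sq_abs]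
    rw [e2]
    norm_num
    ring
  rw [h3]
  linarith

/-- **The fourth derivative is at most a negative constant.** -/
theorem kab (b : ℝ) : ∃ c0 ε0 : ℝ, 0 < c0 ∧ 0 < ε0 ∧
    ∀ {ι ρ Y : Type} [Fintype ι] [DecidableEq ι] [Fintype ρ] [DecidableEq ρ]
      [Fintype Y] [DecidableEq Y] [Nonempty Y] {S0 : Sy ι Y} {lr : ρ → ℕ} {α : Y → ρ → ℝ}
      {s X : Y → ℝ} {r : ℕ → ℝ} {v0 : ℝ} {D : ι → (ι → ℝ) → Y → ℝ} (hS : S0.RegD D)
      (hm : Exponents S0.K S0.m) (hlr : ∀ i, lr i ≤ S0.K) (hr : BPath b S0.K r)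
      (hs : ∀ y, s y ^ 2 = 1) (hα : ∀ y, ∑ i, α y i ^ 2 = v0) (hv : v0 ≤ b ^ 2)
      (hE : eK S0 lr α s r ≤ ε0) (hX : S0.Ex (fun _ y => (X y - s y) ^ 4) ≤ ε0),
      iteratedDeriv 4 (fun h => (SR S0 lr α X h).fe) 0 ≤ -c0 := by
  obtain ⟨c, hc, hk⟩ := kk_gen b
  have hpi := Real.pi_pos
  obtain ⟨δ, hδ⟩ : ∃ δ : ℝ, δ = min (1 / 2) (c / (4 * (144 * 270))) := ⟨_, rfl⟩
  have hδ0 : 0 < δ := by
    rw [hδ]
    positivity
  have hδ1 : δ ≤ 1 / 2 := by
    rw [hδ]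
    exact min_le_left _ _
  have hδ2 : 144 * 270 * δ ≤ c / 4 := by
    have h : δ ≤ c / (4 * (144 * 270)) := by
      rw [hδ]
      exact min_le_right _ _
    rw [le_div_iff₀ (by norm_num)] at h
    linarith
  obtain ⟨t, ht⟩ : ∃ t : ℝ, t = c / (8 * (34 ^ 3 * 8)) := ⟨_, rfl⟩
  have ht0 : 0 < t := by
    rw [ht]
    positivity
  have ht1 : 34 ^ 3 * (8 * t) = c / 8 := by
    rw [ht]
    ring
  obtain ⟨A, hA⟩ : ∃ A : ℝ, A = 16 * (Real.pi / 4 * Real.exp (2 * b ^ 2 + 2)) / δ ^ 4 := ⟨_, rfl⟩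
  have hA0 : 0 < A := by
    rw [hA]
    have := pow_pos hδ0 4
    positivity
  obtain ⟨B, hB⟩ : ∃ B : ℝ, B = 34 ^ 3 * (((t ^ 3)⁻¹ + 8 * t) * Real.exp (b ^ 2 / 2)) := ⟨_, rfl⟩
  have hB0 : 0 < B := by
    rw [hB]
    have := pow_pos ht0 3
    positivity
  refine ⟨c / 4, min (c / (4 * A)) (c / (8 * B)), by positivity, by positivity, ?_⟩
  intro ι ρ Y _ _ _ _ _ _ _ S0 lr α s X r v0 D hS hm hlr hr hs hα hv hE hX
  have h1 := kab_s (b := b) hS hlr hr.2.1 hr.1 hr.2.2 hs hα hv hδ0 hδ1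
  have h2 := hk S0.K S0.m r hm hr
  have h3 := kab_X (X := X) hS.toReg hlr hs hα ht0
  have hEA : A * eK S0 lr α s r ≤ c / 4 := by
    have h := hE.trans (min_le_left _ _)
    rw [le_div_iff₀ (by positivity)] at h
    linarith
  have hXn : 0 ≤ S0.Ex (fun _ y => (X y - s y) ^ 4) := by
    have := hS.toReg.Ex_mono (f := fun _ _ => 0) (fun _ => EG.const _)
      (Nh.snd fun y => (X y - s y) ^ 4) (fun z y => by positivity)
    rwa [hS.toReg.Ex_const] at this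
  have hXB : B * S0.Ex (fun _ y => (X y - s y) ^ 4) ≤ c / 8 := by
    have h := hX.trans (min_le_right _ _)
    rw [le_div_iff₀ (by positivity)] at h
    linarith
  have e1 : 16 * (Real.pi / 4 * (Real.exp (2 * b ^ 2 + 2) * eK S0 lr α s r)) / δ ^ 4 =
      A * eK S0 lr α s r := by
    rw [hA]
    ring
  rw [e1] at h1
  have h4 : 34 ^ 3 * (((t ^ 3)⁻¹ + 8 * t) * (Real.exp (v0 / 2) *
      S0.Ex (fun _ y => (X y - s y) ^ 4)) + 8 * t) ≤ c / 8 + c / 8 := by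
    have h5 : Real.exp (v0 / 2) ≤ Real.exp (b ^ 2 / 2) := Real.exp_le_exp.2 (by linarith)
    have h6 : 34 ^ 3 * (((t ^ 3)⁻¹ + 8 * t) * (Real.exp (v0 / 2) *
        S0.Ex (fun _ y => (X y - s y) ^ 4))) ≤ B * S0.Ex (fun _ y => (X y - s y) ^ 4) := by
      rw [hB]
      have h7 := mul_le_mul_of_nonneg_right h5 hXn
      have h8 : 0 ≤ (34 : ℝ) ^ 3 * ((t ^ 3)⁻¹ + 8 * t) := by
        have := pow_pos ht0 3
        positivity
      have h9 := mul_le_mul_of_nonneg_left h7 h8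
      calc (34 : ℝ) ^ 3 * (((t ^ 3)⁻¹ + 8 * t) * (Real.exp (v0 / 2) *
          S0.Ex (fun _ y => (X y - s y) ^ 4))) =
          34 ^ 3 * ((t ^ 3)⁻¹ + 8 * t) * (Real.exp (v0 / 2) *
            S0.Ex (fun _ y => (X y - s y) ^ 4)) := by ring
        _ ≤ _ := h9
        _ = _ := by ring
    rw [mul_add, ht1]
    linarith
  have h1' := abs_le.1 h1
  have h3' := abs_le.1 (h3.trans h4)
  linarith [h1'.2, h3'.2]

/-- **Form without smallness of the errors.** -/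
theorem kab_lin (b : ℝ) : ∃ c0 C : ℝ, 0 < c0 ∧ 0 < C ∧
    ∀ {ι ρ Y : Type} [Fintype ι] [DecidableEq ι] [Fintype ρ] [DecidableEq ρ]
      [Fintype Y] [DecidableEq Y] [Nonempty Y] {S0 : Sy ι Y} {lr : ρ → ℕ} {α : Y → ρ → ℝ}
      {s X : Y → ℝ} {r : ℕ → ℝ} {v0 : ℝ} {D : ι → (ι → ℝ) → Y → ℝ} (hS : S0.RegD D)
      (hm : Exponents S0.K S0.m) (hlr : ∀ i, lr i ≤ S0.K) (hr : BPath b S0.K r)
      (hs : ∀ y, s y ^ 2 = 1) (hsX : ∀ y, 0 ≤ s y * X y) (hα : ∀ y, ∑ i, α y i ^ 2 = v0)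
      (hv : v0 ≤ b ^ 2),
      iteratedDeriv 4 (fun h => (SR S0 lr α X h).fe) 0 ≤ -c0 + C * (eK S0 lr α s r +
        S0.Ex (fun _ y => (X y ^ 2 - 1) ^ 2)) := by
  obtain ⟨c, ε, hc, hε, hk⟩ := kab b
  obtain ⟨A, hA⟩ : ∃ A : ℝ, A = 34 ^ 3 * 2 * (Real.exp (b ^ 2 / 2) * 2) := ⟨_, rfl⟩
  have hA0 : 0 < A := by
    rw [hA]
    positivity
  refine ⟨c, (A + c) / ε + A, hc, by positivity, ?_⟩
  intro ι ρ Y _ _ _ _ _ _ _ S0 lr α s X r v0 D hS hm hlr hr hs hsX hα hv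
  have hE0 : 0 ≤ eK S0 lr α s r := by
    unfold eK
    refine Finset.sum_nonneg fun l hl => mul_nonneg (p_nonneg hS.toReg hl) ?_
    have hlK : l ≤ S0.K := by
      have := Finset.mem_range.1 hl
      omega
    have := hS.toReg.pairEx_mono hlK (ψ := fun _ _ => 0)
      (ψ' := fun y y' => |s y * s y' * cr lr α l y y' - r l|) (fun _ _ => abs_nonneg _)
    have h0 : S0.pairEx l (fun _ _ => (0 : ℝ)) = 0 := by
      have := hS.toReg.pairEx_const_mul (l := l) 0 (fun _ _ : Y => (0 : ℝ))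
      simpa using this
    rwa [h0] at this
  have hpt : ∀ y, (X y - s y) ^ 4 ≤ (X y ^ 2 - 1) ^ 2 := by
    intro y
    have h1 := hs y
    have h2 := hsX y
    have h3 : X y ^ 2 - 1 = (X y - s y) * (X y + s y) := by
      have : X y ^ 2 - s y ^ 2 = (X y - s y) * (X y + s y) := by ring
      rw [h1] at this
      exact this
    have h4 : (X y - s y) ^ 2 ≤ (X y + s y) ^ 2 := by nlinarith
    rw [h3, mul_pow]
    calc (X y - s y) ^ 4 = (X y - s y) ^ 2 * (X y - s y) ^ 2 := by ring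
      _ ≤ (X y - s y) ^ 2 * (X y + s y) ^ 2 := mul_le_mul_of_nonneg_left h4 (sq_nonneg _)
  have hD : S0.Ex (fun _ y => (X y - s y) ^ 4) ≤ S0.Ex (fun _ y => (X y ^ 2 - 1) ^ 2) :=
    hS.toReg.Ex_mono (Nh.snd fun y => (X y - s y) ^ 4) (Nh.snd fun y => (X y ^ 2 - 1) ^ 2)
      fun z y => hpt y
  have hD0 : 0 ≤ S0.Ex (fun _ y => (X y ^ 2 - 1) ^ 2) := by
    have := hS.toReg.Ex_mono (f := fun _ _ => 0) (fun _ => EG.const _)
      (Nh.snd fun y => (X y ^ 2 - 1) ^ 2) (fun z y => by positivity)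
    rwa [hS.toReg.Ex_const] at this
  obtain ⟨E, hEd⟩ : ∃ E : ℝ, E = eK S0 lr α s r + S0.Ex (fun _ y => (X y ^ 2 - 1) ^ 2) := ⟨_, rfl⟩
  rw [← hEd]
  have hEn : 0 ≤ E := by
    rw [hEd]
    linarith
  rcases le_total E ε with h | h
  · have h1 := hk (X := X) hS hm hlr hr hs hα hv (by linarith) (by linarith)
    have h2 : 0 ≤ ((A + c) / ε + A) * E := by positivity
    linarith
  · have h1 := (le_abs_self _).trans (kab_abs hS.toReg hlr hα X)
    have h4 : S0.Ex (fun _ y => X y ^ 4) ≤ 2 + 2 * S0.Ex (fun _ y => (X y ^ 2 - 1) ^ 2) := by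
      have e : S0.Ex (fun _ y => 2 + 2 * (X y ^ 2 - 1) ^ 2) =
          2 + 2 * S0.Ex (fun _ y => (X y ^ 2 - 1) ^ 2) := by
        rw [hS.toReg.Ex_add (Nh.snd fun _ : Y => (2 : ℝ))
          (Nh.snd fun y => 2 * (X y ^ 2 - 1) ^ 2), hS.toReg.Ex_const, Sy.Ex_const_mul]
      rw [← e]
      refine hS.toReg.Ex_mono (Nh.snd fun y => X y ^ 4)
        (Nh.snd fun y => 2 + 2 * (X y ^ 2 - 1) ^ 2) fun z y => ?_
      nlinarith [sq_nonneg (X y ^ 2 - 2)]
    have h5 : Real.exp (v0 / 2) ≤ Real.exp (b ^ 2 / 2) := Real.exp_le_exp.2 (by linarith)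
    have hDE : S0.Ex (fun _ y => (X y ^ 2 - 1) ^ 2) ≤ E := by
      rw [hEd]
      linarith
    have h6 : Real.exp (v0 / 2) * S0.Ex (fun _ y => X y ^ 4) ≤
        Real.exp (b ^ 2 / 2) * (2 * (1 + E)) := by
      have h7 : S0.Ex (fun _ y => X y ^ 4) ≤ 2 * (1 + E) := by linarith
      exact mul_le_mul h5 h7 (by
        have := hS.toReg.Ex_mono (f := fun _ _ => 0) (fun _ => EG.const _)
          (Nh.snd fun y => X y ^ 4) (fun z y => by positivity)
        rwa [hS.toReg.Ex_const] at this) (Real.exp_pos _).le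
    have h8 : 34 ^ 3 * 2 * (Real.exp (v0 / 2) * S0.Ex (fun _ y => X y ^ 4)) ≤ A * (1 + E) := by
      rw [hA]
      linarith [mul_le_mul_of_nonneg_left h6 (show (0 : ℝ) ≤ 34 ^ 3 * 2 by norm_num)]
    have h9 : A + c ≤ (A + c) / ε * E := by
      rw [div_mul_eq_mul_div, le_div_iff₀ hε]
      exact mul_le_mul_of_nonneg_left h (by linarith)
    linarith

end main

end Vale.Agent.P146.H826
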