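import Vale.Agent.P146.H784.Pert

set_option linter.all false

/-!
The derivative of the averages of a system in the strength `h` of a field `h f(x)`:
`d/dh Ex_h g = Ex_h (g f) - ∑ l, p_l pairEx_l (g ⊗ f)`.
-/

open MeasureTheory ProbabilityTheory Filter Topology

namespace Vale.Agent.P146.H826

open Vale.Agent.P157 Vale.Agent.P157.Lv Vale.Agent.P157.Lv.Sy
open Vale.Agent.P146.H784

variable {ι X : Type} [Fintype ι] [DecidableEq ι] [Fintype X] [DecidableEq X] [Nonempty X]
  {S : Sy ι X} {l : ℕ}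

/-- the system with the field `h f` -/
noncomputable def ah (S : Sy ι X) (f : X → ℝ) (h : ℝ) : Sy ι X := ad S (fun x => h * f x)

lemma ah_reg (hS : S.Reg) (f : X → ℝ) (h : ℝ) : (ah S f h).Reg := ad_reg hS _

lemma ah_zero (S : Sy ι X) (f : X → ℝ) : ah S f 0 = S := by
  unfold ah ad Sy.wH
  have : (fun (z : ι → ℝ) x => S.H z x + 0 * f x) = S.H := by
    funext z x
    ring
  rw [this]

lemma ah_ah (S : Sy ι X) (f : X → ℝ) (h h' : ℝ) : ah (ah S f h) f h' = ah S f (h + h') := by
  unfold ah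
  rw [ad_ad]
  congr 1
  funext x
  ring

/-- the field at the strength `h'` is a perturbation of the field at the strength `h` -/
lemma ah_wH (S : Sy ι X) (f : X → ℝ) (h h' : ℝ) :
    (ah S f h).wH (fun z x => S.H z x + h' * f x) = ah S f h' := rfl

section lip

variable {f : X → ℝ} {F : ℝ}

lemma lg_ah_lip (hS : S.Reg) (hf : ∀ x, |f x| ≤ F) (hl : l ≤ S.K) (h h' : ℝ) (z : ι → ℝ) :
    |(ah S f h').lg l z - (ah S f h).lg l z| ≤ |h' - h| * F := by
  have h1 := (ah_reg hS f h).lg_sub_le (H' := fun z x => S.H z x + h' * f x)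
    (by rw [ah_wH]; exact ah_reg hS f h') (B := |h' - h| * F) (fun z x => by
      have e : S.H z x + h' * f x - (ah S f h).H z x = (h' - h) * f x := by
        show S.H z x + h' * f x - (S.H z x + h * f x) = _
        ring
      rw [e, abs_mul]
      exact mul_le_mul_of_nonneg_left (hf x) (abs_nonneg _)) (l := l) hl z
  exact h1

/-- Abel summation -/
lemma abel_up (hS : S.Reg) {D : ℕ → ℝ} {B : ℝ} (hD : ∀ i ≤ S.K, |D i| ≤ B) :
    ∀ l ≤ S.K, ∑ i ∈ Finset.Ico l S.K, S.m (i + 1) * (D (i + 1) - D i) ≤ 2 * B := by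
  have hB : 0 ≤ B := (abs_nonneg _).trans (hD 0 (Nat.zero_le _))
  have key : ∀ l ≤ S.K, ∑ i ∈ Finset.Ico l S.K, S.m (i + 1) * (D (i + 1) - D i) +
      S.m (l + 1) * D l ≤ (2 - S.m (l + 1)) * B := by
    refine down_ind ?_ ?_
    · rw [Finset.Ico_self, Finset.sum_empty, hS.mK]
      have := (abs_le.1 (hD S.K le_rfl)).2
      linarith
    · intro l hl ih
      rw [Finset.sum_eq_sum_Ico_succ_bot hl]
      have h1 := hS.mono (l + 1) (by omega)
      have h2 := (abs_le.1 (hD (l + 1) (by omega))).1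
      have h3 : 0 ≤ (S.m (l + 1 + 1) - S.m (l + 1)) * (B + D (l + 1)) :=
        mul_nonneg (by linarith) (by linarith)
      nlinarith
  intro l hl
  have h1 := key l hl
  have h2 := (abs_le.1 (hD l hl)).1
  have h3 : 0 ≤ S.m (l + 1) := (hS.m_pos (by omega) (by omega)).le
  have h4 : 0 ≤ S.m (l + 1) * (B + D l) := mul_nonneg h3 (by linarith)
  nlinarith

lemma dn_ah_le (hS : S.Reg) (hf : ∀ x, |f x| ≤ F) (hl : l ≤ S.K) (h h' : ℝ) (z : ι → ℝ) :
    (ah S f h').dn l z ≤ Real.exp (2 * (|h' - h| * F)) * (ah S f h).dn l z := by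
  unfold dn
  rw [← Real.exp_add, Real.exp_le_exp]
  have h1 := abel_up hS (D := fun i => (ah S f h').lg i z - (ah S f h).lg i z)
    (B := |h' - h| * F) (fun i hi => lg_ah_lip hS hf hi h h' z) l hl
  have h2 : ∑ i ∈ Finset.Ico l S.K, S.m (i + 1) * (((ah S f h').lg (i + 1) z -
      (ah S f h).lg (i + 1) z) - ((ah S f h').lg i z - (ah S f h).lg i z)) =
      ∑ i ∈ Finset.Ico l S.K, S.m (i + 1) * ((ah S f h').lg (i + 1) z - (ah S f h').lg i z) -
      ∑ i ∈ Finset.Ico l S.K, S.m (i + 1) * ((ah S f h).lg (i + 1) z - (ah S f h).lg i z) := by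
    rw [← Finset.sum_sub_distrib]
    refine Finset.sum_congr rfl fun i _ => ?_
    ring
  rw [h2] at h1
  show ∑ i ∈ Finset.Ico l S.K, S.m (i + 1) * ((ah S f h').lg (i + 1) z - (ah S f h').lg i z) ≤
    2 * (|h' - h| * F) +
      ∑ i ∈ Finset.Ico l S.K, S.m (i + 1) * ((ah S f h).lg (i + 1) z - (ah S f h).lg i z)
  linarith

lemma gb_ah_le (hf : ∀ x, |f x| ≤ F) (h h' : ℝ) (z : ι → ℝ) (x : X) :
    (ah S f h').gb z x ≤ Real.exp (2 * (|h' - h| * F)) * (ah S f h).gb z x := by
  have hb : ∀ x, |(h' - h) * f x| ≤ |h' - h| * F := fun x => by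
    rw [abs_mul]
    exact mul_le_mul_of_nonneg_left (hf x) (abs_nonneg _)
  unfold gb
  have p1 := (ah S f h').sum_exp_pos z
  have p2 := (ah S f h).sum_exp_pos z
  rw [mul_div_assoc', div_le_div_iff₀ p1 p2]
  have h1 : Real.exp ((ah S f h').H z x) ≤
      Real.exp (|h' - h| * F) * Real.exp ((ah S f h).H z x) := by
    rw [← Real.exp_add, Real.exp_le_exp]
    show S.H z x + h' * f x ≤ |h' - h| * F + (S.H z x + h * f x)
    have := (abs_le.1 (hb x)).2
    linarith
  have h2 : ∑ x', Real.exp ((ah S f h).H z x') ≤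
      Real.exp (|h' - h| * F) * ∑ x', Real.exp ((ah S f h').H z x') := by
    rw [Finset.mul_sum]
    refine Finset.sum_le_sum fun x' _ => ?_
    rw [← Real.exp_add, Real.exp_le_exp]
    show S.H z x' + h * f x' ≤ |h' - h| * F + (S.H z x' + h' * f x')
    have := (abs_le.1 (hb x')).1
    linarith
  calc Real.exp ((ah S f h').H z x) * ∑ x', Real.exp ((ah S f h).H z x')
      ≤ (Real.exp (|h' - h| * F) * Real.exp ((ah S f h).H z x)) *
        (Real.exp (|h' - h| * F) * ∑ x', Real.exp ((ah S f h').H z x')) :=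
      mul_le_mul h1 h2 p2.le (by positivity)
    _ = Real.exp (2 * (|h' - h| * F)) * Real.exp ((ah S f h).H z x) *
        ∑ x', Real.exp ((ah S f h').H z x') := by
      rw [two_mul, Real.exp_add]
      ring

lemma T_ah_le (hS : S.Reg) (hf : ∀ x, |f x| ≤ F) (hl : l ≤ S.K) (h h' : ℝ) {g : X → ℝ}
    (hg : ∀ x, 0 ≤ g x) (z : ι → ℝ) :
    (ah S f h').T l (fun _ x => g x) z ≤
      Real.exp (4 * (|h' - h| * F)) * (ah S f h).T l (fun _ x => g x) z := by
  unfold T
  rw [← J_const_mul]
  have hR := ah_reg hS f h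
  have hR' := ah_reg hS f h'
  refine J_mono (((hR'.eg_dn hl).mul (hR'.eg_av (Nh.snd g))))
    (((hR.eg_dn hl).mul (hR.eg_av (Nh.snd g))).const_mul _) (fun y => ?_) z
  have h1 := dn_ah_le hS hf hl h h' y
  have h2 : (ah S f h').av (fun _ x => g x) y ≤
      Real.exp (2 * (|h' - h| * F)) * (ah S f h).av (fun _ x => g x) y := by
    unfold Sy.av
    rw [Finset.mul_sum]
    refine Finset.sum_le_sum fun x _ => ?_
    rw [← mul_assoc]
    exact mul_le_mul_of_nonneg_right (gb_ah_le hf h h' y x) (hg x)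
  have h3 : 0 ≤ (ah S f h').av (fun _ x => g x) y :=
    Finset.sum_nonneg fun x _ => mul_nonneg ((ah S f h').gb_pos y x).le (hg x)
  have h4 := mul_le_mul h1 h2 h3
    (mul_nonneg (Real.exp_pos _).le ((ah S f h).dn_pos l y).le)
  refine h4.trans (le_of_eq ?_)
  have e : (4 : ℝ) * (|h' - h| * F) = 2 * (|h' - h| * F) + 2 * (|h' - h| * F) := by ring
  rw [e, Real.exp_add]
  ring

lemma T_ah_sub (hS : S.Reg) (hf : ∀ x, |f x| ≤ F) (hl : l ≤ S.K) (h h' : ℝ) {g : X → ℝ}
    {G : ℝ} (hg : ∀ x, |g x| ≤ G) (z : ι → ℝ) :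
    |(ah S f h').T l (fun _ x => g x) z - (ah S f h).T l (fun _ x => g x) z| ≤
      2 * G * (Real.exp (4 * (|h' - h| * F)) - 1) := by
  have key : ∀ h h', (ah S f h').T l (fun _ x => g x) z - (ah S f h).T l (fun _ x => g x) z ≤
      2 * G * (Real.exp (4 * (|h' - h| * F)) - 1) := by
    intro h h'
    have hR := ah_reg hS f h
    have hR' := ah_reg hS f h'
    have h1 := T_ah_le hS hf hl h h' (g := fun x => g x + G) (fun x => by
      have := (abs_le.1 (hg x)).1
      linarith) z
    have e1 := hR.T_add (l := l) hl (f := fun _ x => g x) (g := fun _ _ => G) (Nh.snd g)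
      (fun _ => EG.const G) z
    have e2 := hR'.T_add (l := l) hl (f := fun _ x => g x) (g := fun _ _ => G) (Nh.snd g)
      (fun _ => EG.const G) z
    rw [hR.T_const hl] at e1
    rw [hR'.T_const hl] at e2
    rw [e1, e2] at h1
    have h2 := (abs_le.1 (hR.abs_T_le (l := l) hl (f := fun _ x => g x) (Nh.snd g)
      (fun _ x => hg x) z)).2
    have hE : 1 ≤ Real.exp (4 * (|h' - h| * F)) := by
      have hF : 0 ≤ F := (abs_nonneg _).trans (hf (Classical.arbitrary X))
      exact Real.one_le_exp (by positivity)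
    nlinarith [mul_le_mul_of_nonneg_left h2 (sub_nonneg.2 hE)]
  rw [abs_le]
  constructor
  · have h1 := key h' h
    rw [abs_sub_comm h h'] at h1
    linarith
  · exact key h h'

lemma T_ah_cont (hS : S.Reg) (f g : X → ℝ) (hl : l ≤ S.K) (z : ι → ℝ) :
    Continuous fun h => (ah S f h).T l (fun _ x => g x) z := by
  obtain ⟨F, hF⟩ : ∃ F : ℝ, ∀ x, |f x| ≤ F :=
    ⟨∑ x, |f x|, fun x => Finset.single_le_sum (f := fun x => |f x|) (fun x _ => abs_nonneg _)
      (Finset.mem_univ x)⟩
  obtain ⟨G, hG⟩ : ∃ G : ℝ, ∀ x, |g x| ≤ G :=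
    ⟨∑ x, |g x|, fun x => Finset.single_le_sum (f := fun x => |g x|) (fun x _ => abs_nonneg _)
      (Finset.mem_univ x)⟩
  rw [continuous_iff_continuousAt]
  intro h
  rw [ContinuousAt, tendsto_iff_dist_tendsto_zero]
  have h1 : Tendsto (fun h' : ℝ => 2 * G * (Real.exp (4 * (|h' - h| * F)) - 1)) (𝓝 h) (𝓝 0) := by
    have hc : Continuous fun h' : ℝ => 2 * G * (Real.exp (4 * (|h' - h| * F)) - 1) := by
      fun_prop
    have := hc.tendsto h
    simpa using this
  refine squeeze_zero (fun _ => dist_nonneg) (fun h' => ?_) h1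
  rw [Real.dist_eq]
  exact T_ah_sub hS hF hl h h' hG z

end lip

/-- the derivative of the log-weights -/
theorem hd_lg (hS : S.Reg) (f : X → ℝ) (hl : l ≤ S.K) (z : ι → ℝ) (h : ℝ) :
    HasDerivAt (fun h => (ah S f h).lg l z) ((ah S f h).T l (fun _ x => f x) z) h := by
  have up : ∀ h h', (h' - h) * (ah S f h).T l (fun _ x => f x) z ≤
      (ah S f h').lg l z - (ah S f h).lg l z := by
    intro h h'
    have h1 := (ah_reg hS f h).jensen_lg (H' := fun z x => S.H z x + h' * f x)
      (by rw [ah_wH]; exact ah_reg hS f h') (l := l) hl z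
    have e : (fun z x => S.H z x + h' * f x - (ah S f h).H z x) =
        fun (_ : ι → ℝ) x => (h' - h) * f x := by
      funext z x
      show S.H z x + h' * f x - (S.H z x + h * f x) = _
      ring
    rw [e, T_const_mul] at h1
    exact h1
  have hc := T_ah_cont hS f f hl z
  rw [hasDerivAt_iff_tendsto]
  have h2 : Tendsto (fun h' : ℝ => |(ah S f h').T l (fun _ x => f x) z -
      (ah S f h).T l (fun _ x => f x) z|) (𝓝 h) (𝓝 0) := by
    have := (hc.tendsto h).sub_const ((ah S f h).T l (fun _ x => f x) z)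
    rw [sub_self] at this
    have := this.abs
    simpa using this
  refine squeeze_zero (fun _ => by positivity) (fun h' => ?_) h2
  rw [Real.norm_eq_abs, Real.norm_eq_abs, smul_eq_mul]
  rcases eq_or_ne h' h with rfl | hne
  · simp
  have hpos : 0 < |h' - h| := abs_pos.2 (sub_ne_zero.2 hne)
  rw [inv_mul_le_iff₀ hpos, ← abs_mul]
  have h3 := up h h'
  have h4 := up h' h
  obtain ⟨a, ha⟩ : ∃ a, a = (ah S f h').T l (fun _ x => f x) z := ⟨_, rfl⟩
  obtain ⟨b, hb⟩ : ∃ b, b = (ah S f h).T l (fun _ x => f x) z := ⟨_, rfl⟩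
  rw [← ha, ← hb]
  rw [← hb] at h3
  rw [← ha] at h4
  have h5 : 0 ≤ (ah S f h').lg l z - (ah S f h).lg l z - (h' - h) * b := by linarith
  rw [abs_of_nonneg h5]
  refine le_trans ?_ (le_abs_self _)
  nlinarith

/-- the derivative of the density -/
lemma hd_dn (hS : S.Reg) (f : X → ℝ) (z : ι → ℝ) (h : ℝ) :
    HasDerivAt (fun h => (ah S f h).dn 0 z) ((ah S f h).dn 0 z *
      ∑ i ∈ Finset.Ico 0 S.K, S.m (i + 1) * ((ah S f h).T (i + 1) (fun _ x => f x) z -
        (ah S f h).T i (fun _ x => f x) z)) h := by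
  have h1 : HasDerivAt (fun h => ∑ i ∈ Finset.Ico 0 S.K, S.m (i + 1) *
      ((ah S f h).lg (i + 1) z - (ah S f h).lg i z))
      (∑ i ∈ Finset.Ico 0 S.K, S.m (i + 1) * ((ah S f h).T (i + 1) (fun _ x => f x) z -
        (ah S f h).T i (fun _ x => f x) z)) h := by
    refine HasDerivAt.fun_sum fun i hi => ?_
    have hi' := (Finset.mem_Ico.1 hi).2
    exact ((hd_lg hS f (l := i + 1) hi' z h).sub (hd_lg hS f hi'.le z h)).const_mul _
  exact h1.exp

/-- the derivative of the Gibbs averages -/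
lemma hd_av (f g : X → ℝ) (z : ι → ℝ) (h : ℝ) :
    HasDerivAt (fun h => (ah S f h).av (fun _ x => g x) z)
      ((ah S f h).av (fun _ x => g x * f x) z -
        (ah S f h).av (fun _ x => g x) z * (ah S f h).av (fun _ x => f x) z) h := by
  have e : ∀ h (g : X → ℝ), (ah S f h).av (fun _ x => g x) z =
      (∑ x, Real.exp (S.H z x + h * f x) * g x) / ∑ x, Real.exp (S.H z x + h * f x) := by
    intro h g
    unfold Sy.av gb
    rw [Finset.sum_div]
    refine Finset.sum_congr rfl fun x _ => ?_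
    show Real.exp (S.H z x + h * f x) / (∑ x, Real.exp (S.H z x + h * f x)) * g x = _
    ring
  have h0 : ∀ x, HasDerivAt (fun h => Real.exp (S.H z x + h * f x))
      (Real.exp (S.H z x + h * f x) * f x) h := by
    intro x
    have h1 : HasDerivAt (fun h => S.H z x + h * f x) (f x) h := by
      have := ((hasDerivAt_id h).mul_const (f x)).const_add (S.H z x)
      simpa using this
    exact h1.exp
  have h1 : HasDerivAt (fun h => ∑ x, Real.exp (S.H z x + h * f x) * g x)
      (∑ x, Real.exp (S.H z x + h * f x) * f x * g x) h :=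
    HasDerivAt.fun_sum fun x _ => (h0 x).mul_const (g x)
  have h2 : HasDerivAt (fun h => ∑ x, Real.exp (S.H z x + h * f x))
      (∑ x, Real.exp (S.H z x + h * f x) * f x) h :=
    HasDerivAt.fun_sum fun x _ => h0 x
  have hp : 0 < ∑ x, Real.exp (S.H z x + h * f x) := (ah S f h).sum_exp_pos z
  have h3 := h1.div h2 hp.ne'
  have e1 : (fun h => (ah S f h).av (fun _ x => g x) z) = fun h =>
      (∑ x, Real.exp (S.H z x + h * f x) * g x) / ∑ x, Real.exp (S.H z x + h * f x) := by
    funext h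
    exact e h g
  rw [e1]
  refine h3.congr_deriv ?_
  rw [e, e, e]
  have e2 : ∑ x, Real.exp (S.H z x + h * f x) * (g x * f x) =
      ∑ x, Real.exp (S.H z x + h * f x) * f x * g x :=
    Finset.sum_congr rfl fun x _ => by ring
  rw [e2]
  field_simp

/-- Abel summation -/
lemma abel_eq (hS : S.Reg) (D : ℕ → ℝ) :
    ∑ i ∈ Finset.Ico 0 S.K, S.m (i + 1) * (D (i + 1) - D i) - D S.K =
      -∑ l ∈ Finset.range (S.K + 1), S.p l * D l := by
  have key : ∀ k, ∑ i ∈ Finset.Ico 0 k, S.m (i + 1) * (D (i + 1) - D i) - S.m (k + 1) * D k =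
      -∑ l ∈ Finset.range (k + 1), S.p l * D l := by
    intro k
    induction k with
    | zero =>
      unfold Sy.p
      simp [hS.m0]
    | succ k ih =>
      rw [Finset.sum_range_succ, Finset.sum_Ico_succ_top (Nat.zero_le _)]
      unfold Sy.p at ih ⊢
      linarith
  have h := key S.K
  rw [hS.mK, one_mul] at h
  exact h

/-- product observables -/
lemma pair_prod (hS : S.Reg) (hl : l ≤ S.K) (f g : X → ℝ) :
    S.pairEx l (fun x x' => g x * f x') =
      S.Ex (fun z x => S.T l (fun _ x => f x) z * g x) := by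
  rw [← hS.Ex_mul_T hl (dep_T S l _) (hS.eg_T hl (Nh.snd f)) (Nh.snd g)]
  unfold pairEx
  congr 1
  funext z _
  rw [hS.T_pr hl f z, hS.T_pr hl g z, Finset.sum_mul_sum]
  rw [Finset.sum_comm]
  refine Finset.sum_congr rfl fun x _ => Finset.sum_congr rfl fun x' _ => ?_
  ring

lemma sum_p (hS : S.Reg) : ∑ l ∈ Finset.range (S.K + 1), S.p l = 1 := by
  unfold Sy.p
  rw [Finset.sum_range_sub, hS.m0, hS.mK, sub_zero]

lemma p_nonneg (hS : S.Reg) {l : ℕ} (hl : l ∈ Finset.range (S.K + 1)) : 0 ≤ S.p l := by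
  have := hS.mono l (by have := Finset.mem_range.1 hl; omega)
  unfold Sy.p
  linarith

/-- **The derivative of the averages.** -/
theorem hd_Ex (hS : S.Reg) (f g : X → ℝ) (h : ℝ) :
    HasDerivAt (fun h => (ah S f h).Ex (fun _ x => g x))
      ((ah S f h).Ex (fun _ x => g x * f x) - ∑ l ∈ Finset.range (S.K + 1), S.p l *
        (ah S f h).pairEx l (fun x x' => g x * f x')) h := by
  obtain ⟨F, hF⟩ : ∃ F : ℝ, ∀ x, |f x| ≤ F :=
    ⟨∑ x, |f x|, fun x => Finset.single_le_sum (f := fun x => |f x|) (fun x _ => abs_nonneg _)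
      (Finset.mem_univ x)⟩
  obtain ⟨G, hG⟩ : ∃ G : ℝ, ∀ x, |g x| ≤ G :=
    ⟨∑ x, |g x|, fun x => Finset.single_le_sum (f := fun x => |g x|) (fun x _ => abs_nonneg _)
      (Finset.mem_univ x)⟩
  have hF0 : 0 ≤ F := (abs_nonneg _).trans (hF (Classical.arbitrary X))
  have hG0 : 0 ≤ G := (abs_nonneg _).trans (hG (Classical.arbitrary X))
  have hR : ∀ h, (ah S f h).Reg := ah_reg hS f
  -- the pointwise derivative
  have hd : ∀ h z, HasDerivAt (fun h => (ah S f h).dn 0 z * (ah S f h).av (fun _ x => g x) z)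
      ((ah S f h).dn 0 z * ((ah S f h).av (fun _ x => g x * f x) z -
        (ah S f h).av (fun _ x => g x) z *
          ∑ l ∈ Finset.range (S.K + 1), S.p l * (ah S f h).T l (fun _ x => f x) z)) h := by
    intro h z
    have h1 := (hd_dn hS f z h).mul (hd_av (S := S) f g z h)
    refine h1.congr_deriv ?_
    have h2 := abel_eq hS (fun l => (ah S f h).T l (fun _ x => f x) z)
    have h3 : (ah S f h).T S.K (fun _ x => f x) z = (ah S f h).av (fun _ x => f x) z :=
      (hR h).T_top _ z
    rw [h3] at h2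
    linear_combination ((ah S f h).dn 0 z * (ah S f h).av (fun _ x => g x) z) * h2
  -- the bound
  have hb1 : ∀ h z, |(ah S f h).av (fun _ x => g x * f x) z -
        (ah S f h).av (fun _ x => g x) z *
          ∑ l ∈ Finset.range (S.K + 1), S.p l * (ah S f h).T l (fun _ x => f x) z| ≤
      G * F + G * F := by
    intro h z
    have a1 : ∀ (u : X → ℝ) (U : ℝ), (∀ x, |u x| ≤ U) → |(ah S f h).av (fun _ x => u x) z| ≤ U := by
      intro u U hu
      rw [← (hR h).T_top]
      exact (hR h).abs_T_le le_rfl (Nh.snd u) (fun _ x => hu x) z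
    have a2 := a1 (fun x => g x * f x) (G * F) (fun x => by
      rw [abs_mul]
      exact mul_le_mul (hG x) (hF x) (abs_nonneg _) hG0)
    have a3 := a1 g G hG
    have a4 : |∑ l ∈ Finset.range (S.K + 1), S.p l * (ah S f h).T l (fun _ x => f x) z| ≤ F := by
      refine (Finset.abs_sum_le_sum_abs _ _).trans ?_
      have : ∑ l ∈ Finset.range (S.K + 1), S.p l * F = F := by
        rw [← Finset.sum_mul, sum_p hS, one_mul]
      rw [← this]
      refine Finset.sum_le_sum fun l hl => ?_
      rw [abs_mul, abs_of_nonneg (p_nonneg hS hl)]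
      refine mul_le_mul_of_nonneg_left ?_ (p_nonneg hS hl)
      refine (hR h).abs_T_le ?_ (Nh.snd f) (fun _ x => hF x) z
      have := Finset.mem_range.1 hl
      show l ≤ S.K
      omega
    refine (abs_sub _ _).trans (add_le_add a2 ?_)
    rw [abs_mul]
    exact mul_le_mul a3 a4 (abs_nonneg _) hG0
  have hme : ∀ h, EG fun z => (ah S f h).dn 0 z * (ah S f h).av (fun _ x => g x) z := fun h =>
    ((hR h).eg_dn (Nat.zero_le _)).mul ((hR h).eg_av (Nh.snd g))
  have hTe : ∀ l ∈ Finset.range (S.K + 1), EG fun z =>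
      S.p l * (ah S f h).T l (fun _ x => f x) z := fun l hl =>
    ((hR h).eg_T (by
      have := Finset.mem_range.1 hl
      show l ≤ S.K
      omega) (Nh.snd f)).const_mul _
  have hme' : EG fun z => (ah S f h).dn 0 z * ((ah S f h).av (fun _ x => g x * f x) z -
        (ah S f h).av (fun _ x => g x) z *
          ∑ l ∈ Finset.range (S.K + 1), S.p l * (ah S f h).T l (fun _ x => f x) z) :=
    ((hR h).eg_dn (Nat.zero_le _)).mul (((hR h).eg_av (Nh.snd fun x => g x * f x)).sub
      (((hR h).eg_av (Nh.snd g)).mul (EG.sum _ hTe)))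
  have key := hasDerivAt_integral_of_dominated_loc_of_deriv_le (μ := gI ι)
    (F := fun h z => (ah S f h).dn 0 z * (ah S f h).av (fun _ x => g x) z)
    (F' := fun h z => (ah S f h).dn 0 z * ((ah S f h).av (fun _ x => g x * f x) z -
        (ah S f h).av (fun _ x => g x) z *
          ∑ l ∈ Finset.range (S.K + 1), S.p l * (ah S f h).T l (fun _ x => f x) z))
    (x₀ := h) (s := Metric.ball h 1)
    (bound := fun z => Real.exp (2 * F) * (ah S f h).dn 0 z * (G * F + G * F))
    (Metric.ball_mem_nhds h one_pos)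
    (Filter.Eventually.of_forall fun h => (hme h).meas.aestronglyMeasurable)
    (hme h).integrable hme'.meas.aestronglyMeasurable
    (Filter.Eventually.of_forall fun z h' hh' => by
      rw [Real.norm_eq_abs, abs_mul, abs_of_pos ((ah S f h').dn_pos 0 z)]
      have h1 := dn_ah_le hS hF (Nat.zero_le _) h h' z
      have h2 : |h' - h| ≤ 1 := by
        rw [Metric.mem_ball, Real.dist_eq] at hh'
        exact hh'.le
      have h3 : Real.exp (2 * (|h' - h| * F)) ≤ Real.exp (2 * F) := by
        rw [Real.exp_le_exp]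
        nlinarith
      refine mul_le_mul (h1.trans (mul_le_mul_of_nonneg_right h3 ((ah S f h).dn_pos 0 z).le))
        (hb1 h' z) (abs_nonneg _) ?_
      exact mul_nonneg (Real.exp_pos _).le ((ah S f h).dn_pos 0 z).le)
    (((((hR h).eg_dn (Nat.zero_le _)).const_mul (Real.exp (2 * F))).mul
      (EG.const (G * F + G * F))).integrable)
    (Filter.Eventually.of_forall fun z h' _ => hd h' z)
  refine key.2.congr_deriv ?_
  have hlK : ∀ l ∈ Finset.range (S.K + 1), l ≤ (ah S f h).K := fun l hl => by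
    have := Finset.mem_range.1 hl
    show l ≤ S.K
    omega
  have e1 : ∀ l ∈ Finset.range (S.K + 1), S.p l * (ah S f h).pairEx l (fun x x' => g x * f x') =
      ∫ z, (ah S f h).dn 0 z * ((ah S f h).av (fun _ x => g x) z *
        (S.p l * (ah S f h).T l (fun _ x => f x) z)) ∂(gI ι) := by
    intro l hl
    rw [pair_prod (hR h) (hlK l hl) f g]
    unfold Ex
    rw [← integral_const_mul]
    refine integral_congr_ae (Filter.Eventually.of_forall fun z => ?_)
    simp only
    rw [av_mul_left (ah S f h) (fun z => (ah S f h).T l (fun _ x => f x) z)]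
    ring
  rw [Finset.sum_congr rfl e1, ← integral_finsetSum]
  · unfold Ex
    rw [← integral_sub]
    · refine integral_congr_ae (Filter.Eventually.of_forall fun z => ?_)
      simp only
      rw [← Finset.mul_sum, ← Finset.mul_sum]
      ring
    · exact (((hR h).eg_dn (Nat.zero_le _)).mul
        ((hR h).eg_av (Nh.snd fun x => g x * f x))).integrable
    · refine (EG.sum _ fun l hl => ?_).integrable
      exact ((hR h).eg_dn (Nat.zero_le _)).mul (((hR h).eg_av (Nh.snd g)).mul (hTe l hl))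
  · intro l hl
    exact (((hR h).eg_dn (Nat.zero_le _)).mul (((hR h).eg_av (Nh.snd g)).mul (hTe l hl))).integrable

/-- the derivative of the free energy -/
theorem hd_fe (hS : S.Reg) (f : X → ℝ) (h : ℝ) :
    HasDerivAt (fun h => (ah S f h).fe) ((ah S f h).Ex (fun _ x => f x)) h := by
  have hd : Continuous fun h => (ah S f h).Ex (fun _ x => f x) :=
    continuous_iff_continuousAt.2 fun h => (hd_Ex hS f f h).continuousAt
  have up : ∀ h h', (h' - h) * (ah S f h).Ex (fun _ x => f x) ≤
      (ah S f h').fe - (ah S f h).fe := by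
    intro h h'
    have h1 := (ah_reg hS f h).jensen (H' := fun z x => S.H z x + h' * f x)
      (by rw [ah_wH]; exact ah_reg hS f h')
    have e : (fun z x => S.H z x + h' * f x - (ah S f h).H z x) =
        fun (_ : ι → ℝ) x => (h' - h) * f x := by
      funext z x
      show S.H z x + h' * f x - (S.H z x + h * f x) = _
      ring
    rw [e, Ex_const_mul] at h1
    exact h1
  rw [hasDerivAt_iff_tendsto]
  have h2 : Tendsto (fun h' : ℝ => |(ah S f h').Ex (fun _ x => f x) -
      (ah S f h).Ex (fun _ x => f x)|) (𝓝 h) (𝓝 0) := by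
    have := (hd.tendsto h).sub_const ((ah S f h).Ex (fun _ x => f x))
    rw [sub_self] at this
    have := this.abs
    simpa using this
  refine squeeze_zero (fun _ => by positivity) (fun h' => ?_) h2
  rw [Real.norm_eq_abs, Real.norm_eq_abs, smul_eq_mul]
  rcases eq_or_ne h' h with rfl | hne
  · simp
  have hpos : 0 < |h' - h| := abs_pos.2 (sub_ne_zero.2 hne)
  rw [inv_mul_le_iff₀ hpos, ← abs_mul]
  have h3 := up h h'
  have h4 := up h' h
  obtain ⟨a, ha⟩ : ∃ a, a = (ah S f h').Ex (fun _ x => f x) := ⟨_, rfl⟩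
  obtain ⟨b, hb⟩ : ∃ b, b = (ah S f h).Ex (fun _ x => f x) := ⟨_, rfl⟩
  rw [← ha, ← hb]
  rw [← hb] at h3
  rw [← ha] at h4
  have h5 : 0 ≤ (ah S f h').fe - (ah S f h).fe - (h' - h) * b := by linarith
  rw [abs_of_nonneg h5]
  refine le_trans ?_ (le_abs_self _)
  nlinarith

end Vale.Agent.P146.H826
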