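import Vale.Agent.P146.Bdl.B2

set_option linter.all false

/-!
A system with one more spin: the spin interacts with the others through the fields `α` (coordinates
`ρ`, levels `lr`) and through the external field `h f`.
-/

namespace Vale.Agent.P146.H826

open Vale.Agent.P157 Vale.Agent.P157.Lv

/-- the sign of the additional spin -/
def sgn (e : Bool) : ℝ := if e then 1 else -1

/-- **The system with one more spin.** -/
noncomputable def SR {ι ρ Y : Type} [Fintype ρ] (S0 : Sy ι Y) (lr : ρ → ℕ) (α : Y → ρ → ℝ)
    (f : Y → ℝ) (h : ℝ) : Sy (ι ⊕ ρ) (Y × Bool) where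
  lev := Sum.elim S0.lev lr
  K := S0.K
  m := S0.m
  H := fun z x => S0.H (fun e => z (Sum.inl e)) x.1 +
    sgn x.2 * (∑ r, α x.1 r * z (Sum.inr r) + h * f x.1)

end Vale.Agent.P146.H826
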