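import Vale.Agent.P146.H826.Adk
import Vale.Agent.P146.H784.Int2

set_option linter.all false

/-!
All derivatives of the averages of a system in the strength `h` of a field, by doubling. The bounds
do not depend on the number of levels.
-/

open MeasureTheory ProbabilityTheory Filter Topology

namespace Vale.Agent.P146.H826

open Vale.Agent.P157 Vale.Agent.P157.Lv Vale.Agent.P157.Lv.Sy
open Vale.Agent.P146.H784

/-- the derivative of order `k` of `h ↦ Ex_h g` -/
noncomputable def Dk : ℕ → ∀ {ι X : Type} [Fintype ι] [Fintype X], Sy ι X → (X → ℝ) → (X → ℝ) →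
    ℝ → ℝ
  | 0 => fun S f g h => (ah S f h).Ex (fun _ x => g x)
  | k + 1 => fun S f g h => Dk k S f (fun x => g x * f x) h -
      ∑ l ∈ Finset.range (S.K + 1), S.p l * Dk k (dbl S l) (fun w => f w.1 + f w.2)
        (fun w => g w.1 * f w.2) h

lemma dbl_ah {ι X : Type} [Fintype ι] [DecidableEq ι] [Fintype X] [DecidableEq X] [Nonempty X]
    (S : Sy ι X) (f : X → ℝ) (h : ℝ) (l : ℕ) :
    dbl (ah S f h) l = ah (dbl S l) (fun w => f w.1 + f w.2) h := by
  unfold ah
  rw [dbl_ad]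
  congr 1
  funext w
  ring

/-- **the derivatives** -/
theorem hd_Dk : ∀ (k : ℕ) {ι X : Type} [Fintype ι] [DecidableEq ι] [Fintype X] [DecidableEq X]
    [Nonempty X] {S : Sy ι X} (hS : S.Reg) (f g : X → ℝ) (h : ℝ),
    HasDerivAt (fun h => Dk k S f g h) (Dk (k + 1) S f g h) h := by
  intro k
  induction k with
  | zero =>
    intro ι X _ _ _ _ _ S hS f g h
    have h1 := hd_Ex hS f g h
    refine h1.congr_deriv ?_
    show _ = (ah S f h).Ex (fun _ x => g x * f x) - ∑ l ∈ Finset.range (S.K + 1), S.p l *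
      (ah (dbl S l) (fun w => f w.1 + f w.2) h).Ex (fun _ w => g w.1 * f w.2)
    congr 1
    refine Finset.sum_congr rfl fun l hl => ?_
    rw [← dbl_ah, dbl_Ex_pair (ah_reg hS f h) (by
      have := Finset.mem_range.1 hl
      show l ≤ S.K
      omega) (fun x x' => g x * f x')]
  | succ k ih =>
    intro ι X _ _ _ _ _ S hS f g h
    show HasDerivAt (fun h => Dk k S f (fun x => g x * f x) h -
      ∑ l ∈ Finset.range (S.K + 1), S.p l * Dk k (dbl S l) (fun w => f w.1 + f w.2)
        (fun w => g w.1 * f w.2) h) (Dk (k + 1) S f (fun x => g x * f x) h -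
      ∑ l ∈ Finset.range (S.K + 1), S.p l * Dk (k + 1) (dbl S l) (fun w => f w.1 + f w.2)
        (fun w => g w.1 * f w.2) h) h
    refine (ih hS f (fun x => g x * f x) h).sub (HasDerivAt.fun_sum fun l hl => ?_)
    have hl' : l ≤ S.K := by
      have := Finset.mem_range.1 hl
      omega
    exact (ih (dbl_reg hS hl') (fun w => f w.1 + f w.2) (fun w => g w.1 * f w.2) h).const_mul _

/-- the constants -/
def cD : ℕ → ℝ
  | 0 => 1
  | k + 1 => (1 + 2 ^ k) * cD k

lemma cD_pos (k : ℕ) : 0 < cD k := by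
  induction k with
  | zero => exact one_pos
  | succ k ih =>
    show 0 < (1 + 2 ^ k) * cD k
    positivity

/-- **the uniform bound of the derivatives** -/
theorem abs_Dk : ∀ (k : ℕ) {ι X : Type} [Fintype ι] [DecidableEq ι] [Fintype X] [DecidableEq X]
    [Nonempty X] {S : Sy ι X} (hS : S.Reg) {f g : X → ℝ} {F G : ℝ} (hf : ∀ x, |f x| ≤ F)
    (hg : ∀ x, |g x| ≤ G) (h : ℝ), |Dk k S f g h| ≤ cD k * (G * F ^ k) := by
  intro k
  induction k with
  | zero =>
    intro ι X _ _ _ _ _ S hS f g F G hf hg h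
    show |(ah S f h).Ex (fun _ x => g x)| ≤ 1 * (G * F ^ 0)
    rw [pow_zero, mul_one, one_mul]
    have hR := ah_reg hS f h
    rw [abs_le]
    constructor
    · rw [← hR.Ex_const (-G)]
      exact hR.Ex_mono (fun _ => EG.const _) (Nh.snd g) fun z x => (abs_le.1 (hg x)).1
    · rw [← hR.Ex_const G]
      exact hR.Ex_mono (Nh.snd g) (fun _ => EG.const _) fun z x => (abs_le.1 (hg x)).2
  | succ k ih =>
    intro ι X _ _ _ _ _ S hS f g F G hf hg h
    have hF0 : 0 ≤ F := (abs_nonneg _).trans (hf (Classical.arbitrary X))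
    have hG0 : 0 ≤ G := (abs_nonneg _).trans (hg (Classical.arbitrary X))
    show |Dk k S f (fun x => g x * f x) h -
      ∑ l ∈ Finset.range (S.K + 1), S.p l * Dk k (dbl S l) (fun w => f w.1 + f w.2)
        (fun w => g w.1 * f w.2) h| ≤ (1 + 2 ^ k) * cD k * (G * F ^ (k + 1))
    have h1 := ih hS (f := f) (g := fun x => g x * f x) (F := F) (G := G * F) hf (fun x => by
      rw [abs_mul]
      exact mul_le_mul (hg x) (hf x) (abs_nonneg _) hG0) h
    have h2 : |∑ l ∈ Finset.range (S.K + 1), S.p l * Dk k (dbl S l) (fun w => f w.1 + f w.2)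
        (fun w => g w.1 * f w.2) h| ≤ cD k * ((G * F) * (2 * F) ^ k) := by
      refine (Finset.abs_sum_le_sum_abs _ _).trans ?_
      have e : ∑ l ∈ Finset.range (S.K + 1), S.p l * (cD k * ((G * F) * (2 * F) ^ k)) =
          cD k * ((G * F) * (2 * F) ^ k) := by
        rw [← Finset.sum_mul, sum_p hS, one_mul]
      rw [← e]
      refine Finset.sum_le_sum fun l hl => ?_
      have hl' : l ≤ S.K := by
        have := Finset.mem_range.1 hl
        omega
      rw [abs_mul, abs_of_nonneg (p_nonneg hS hl)]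
      refine mul_le_mul_of_nonneg_left ?_ (p_nonneg hS hl)
      exact ih (dbl_reg hS hl') (f := fun w => f w.1 + f w.2) (g := fun w => g w.1 * f w.2)
        (F := 2 * F) (G := G * F) (fun w => (abs_add_le _ _).trans (by linarith [hf w.1, hf w.2]))
        (fun w => by
          rw [abs_mul]
          exact mul_le_mul (hg w.1) (hf w.2) (abs_nonneg _) hG0) h
    refine (abs_sub _ _).trans ((add_le_add h1 h2).trans (le_of_eq ?_))
    rw [mul_pow]
    ring

/-! ### The L4 comparison of two fields -/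

/-- the majorant -/
noncomputable def M4 {ι X : Type} [Fintype ι] [Fintype X] (S : Sy ι X) (t : ℝ) (w u : X → ℝ) :
    ℝ := S.Ex (fun _ x => (t ^ 3)⁻¹ * w x ^ 4 + t * u x ^ 4)

lemma young4 {t w u : ℝ} (ht : 0 < t) (hw : 0 ≤ w) (hu : 0 ≤ u) :
    w * u ^ 3 ≤ (t ^ 3)⁻¹ * w ^ 4 + t * u ^ 4 := by
  rcases le_total w (t * u) with h | h
  · have h1 : w * u ^ 3 ≤ t * u * u ^ 3 := mul_le_mul_of_nonneg_right h (by positivity)
    have h2 : 0 ≤ (t ^ 3)⁻¹ * w ^ 4 := by positivity
    nlinarith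
  · have h1 : (t * u) ^ 3 ≤ w ^ 3 := pow_le_pow_left₀ (by positivity) h 3
    have h2 : w * (t * u) ^ 3 ≤ w * w ^ 3 := mul_le_mul_of_nonneg_left h1 hw
    have h3 : w * u ^ 3 = (t ^ 3)⁻¹ * (w * (t * u) ^ 3) := by
      field_simp
    have h4 : 0 ≤ t * u ^ 4 := by positivity
    rw [h3]
    have h5 : (t ^ 3)⁻¹ * (w * (t * u) ^ 3) ≤ (t ^ 3)⁻¹ * (w * w ^ 3) :=
      mul_le_mul_of_nonneg_left h2 (by positivity)
    have h6 : w * w ^ 3 = w ^ 4 := by ring
    rw [h6] at h5
    linarith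

lemma M4_dbl {ι X : Type} [Fintype ι] [DecidableEq ι] [Fintype X] [DecidableEq X]
    [Nonempty X] {S : Sy ι X} (hS : S.Reg) {l : ℕ} (hl : l ≤ S.K) {t : ℝ} (ht : 0 < t)
    (w u : X → ℝ) :
    M4 (dbl S l) t (fun y => w y.1 + w y.2) (fun y => u y.1 + u y.2) ≤ 16 * M4 S t w u := by
  have hR := dbl_reg hS hl
  have e1 : (dbl S l).Ex (fun _ (y : X × X) => 8 * ((t ^ 3)⁻¹ * w y.1 ^ 4 + t * u y.1 ^ 4) +
      8 * ((t ^ 3)⁻¹ * w y.2 ^ 4 + t * u y.2 ^ 4)) = 16 * M4 S t w u := by
    rw [hR.Ex_add (Nh.snd fun (y : X × X) => 8 * ((t ^ 3)⁻¹ * w y.1 ^ 4 + t * u y.1 ^ 4))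
      (Nh.snd fun (y : X × X) => 8 * ((t ^ 3)⁻¹ * w y.2 ^ 4 + t * u y.2 ^ 4)),
      Sy.Ex_const_mul, Sy.Ex_const_mul,
      dbl_Ex_pair hS hl (fun x _ => (t ^ 3)⁻¹ * w x ^ 4 + t * u x ^ 4),
      dbl_Ex_pair hS hl (fun _ x => (t ^ 3)⁻¹ * w x ^ 4 + t * u x ^ 4), pairEx_fst hS hl,
      pairEx_snd hS hl]
    unfold M4
    ring
  rw [← e1]
  unfold M4
  refine hR.Ex_mono (Nh.snd fun (y : X × X) => (t ^ 3)⁻¹ * (w y.1 + w y.2) ^ 4 +
    t * (u y.1 + u y.2) ^ 4)
    (Nh.snd fun (y : X × X) => 8 * ((t ^ 3)⁻¹ * w y.1 ^ 4 + t * u y.1 ^ 4) +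
      8 * ((t ^ 3)⁻¹ * w y.2 ^ 4 + t * u y.2 ^ 4)) fun z y => ?_
  have key : ∀ a b : ℝ, (a + b) ^ 4 ≤ 8 * (a ^ 4 + b ^ 4) := by
    intro a b
    have h1 : (a + b) ^ 2 ≤ 2 * (a ^ 2 + b ^ 2) := by nlinarith [sq_nonneg (a - b)]
    have h2 : ((a + b) ^ 2) ^ 2 ≤ (2 * (a ^ 2 + b ^ 2)) ^ 2 :=
      pow_le_pow_left₀ (sq_nonneg _) h1 2
    nlinarith [sq_nonneg (a ^ 2 - b ^ 2)]
  have h1 := mul_le_mul_of_nonneg_left (key (w y.1) (w y.2)) (inv_pos.2 (pow_pos ht 3)).le
  have h2 := mul_le_mul_of_nonneg_left (key (u y.1) (u y.2)) ht.le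
  linarith

/-- **The L4 comparison**: `k + j = 4`. -/
theorem Dk_sub : ∀ (k : ℕ) {ι X : Type} [Fintype ι] [DecidableEq ι] [Fintype X] [DecidableEq X]
    [Nonempty X] {S : Sy ι X} (hS : S.Reg) {f f' g g' w u : X → ℝ} {C t : ℝ} (j : ℕ)
    (hkj : k + (j + 1) = 4) (ht : 0 < t) (hC : 0 ≤ C) (hw0 : ∀ x, 0 ≤ w x)
    (hf : ∀ x, |f x| ≤ u x) (hf' : ∀ x, |f' x| ≤ u x) (hff : ∀ x, |f x - f' x| ≤ w x)
    (hg : ∀ x, |g x| ≤ C * u x ^ (j + 1)) (hg' : ∀ x, |g' x| ≤ C * u x ^ (j + 1))
    (hgg : ∀ x, |g x - g' x| ≤ C * (w x * u x ^ j)),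
    |Dk k S f g 0 - Dk k S f' g' 0| ≤ 34 ^ k * C * M4 S t w u := by
  intro k
  induction k with
  | zero =>
    intro ι X _ _ _ _ _ S hS f f' g g' w u C t j hkj ht hC hw0 hf hf' hff hg hg' hgg
    obtain rfl : j = 3 := by omega
    have hu : ∀ x, 0 ≤ u x := fun x => (abs_nonneg _).trans (hf x)
    show |(ah S f 0).Ex (fun _ x => g x) - (ah S f' 0).Ex (fun _ x => g' x)| ≤
      34 ^ 0 * C * M4 S t w u
    rw [ah_zero, ah_zero, ← hS.Ex_sub (Nh.snd g) (Nh.snd g'), pow_zero, one_mul]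
    refine (hS.abs_Ex_le (f := fun _ x => g x - g' x) (Nh.snd fun x => g x - g' x)).trans ?_
    unfold M4
    rw [← Sy.Ex_const_mul]
    refine hS.Ex_mono (Nh.snd fun x => |g x - g' x|)
      (Nh.snd fun x => C * ((t ^ 3)⁻¹ * w x ^ 4 + t * u x ^ 4)) fun z x => ?_
    exact (hgg x).trans (mul_le_mul_of_nonneg_left (young4 ht (hw0 x) (hu x)) hC)
  | succ k ih =>
    intro ι X _ _ _ _ _ S hS f f' g g' w u C t j hkj ht hC hw0 hf hf' hff hg hg' hgg
    have hu : ∀ x, 0 ≤ u x := fun x => (abs_nonneg _).trans (hf x)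
    have h1 := ih hS (f := f) (f' := f') (g := fun x => g x * f x) (g' := fun x => g' x * f' x)
      (w := w) (u := u) (C := 2 * C) (t := t) (j + 1) (by omega) ht (by linarith) hw0 hf hf' hff
      (fun x => by
        rw [abs_mul]
        have h2 := mul_le_mul (hg x) (hf x) (abs_nonneg _)
          (mul_nonneg hC (pow_nonneg (hu x) _))
        have h3 : 0 ≤ C * u x ^ (j + 1 + 1) := mul_nonneg hC (pow_nonneg (hu x) _)
        rw [mul_assoc, ← pow_succ] at h2
        linarith)
      (fun x => by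
        rw [abs_mul]
        have h2 := mul_le_mul (hg' x) (hf' x) (abs_nonneg _)
          (mul_nonneg hC (pow_nonneg (hu x) _))
        have h3 : 0 ≤ C * u x ^ (j + 1 + 1) := mul_nonneg hC (pow_nonneg (hu x) _)
        rw [mul_assoc, ← pow_succ] at h2
        linarith)
      (fun x => by
        have e : g x * f x - g' x * f' x = (g x - g' x) * f x + g' x * (f x - f' x) := by ring
        rw [e]
        refine (abs_add_le _ _).trans ?_
        rw [abs_mul, abs_mul]
        have h2 := mul_le_mul (hgg x) (hf x) (abs_nonneg _)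
          (mul_nonneg hC (mul_nonneg (hw0 x) (pow_nonneg (hu x) _)))
        have h3 := mul_le_mul (hg' x) (hff x) (abs_nonneg _)
          (mul_nonneg hC (pow_nonneg (hu x) _))
        refine (add_le_add h2 h3).trans (le_of_eq ?_)
        ring)
    have h2 : |∑ l ∈ Finset.range (S.K + 1), S.p l * Dk k (dbl S l) (fun w => f w.1 + f w.2)
        (fun w => g w.1 * f w.2) 0 - ∑ l ∈ Finset.range (S.K + 1), S.p l *
        Dk k (dbl S l) (fun w => f' w.1 + f' w.2) (fun w => g' w.1 * f' w.2) 0| ≤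
        34 ^ k * (2 * C) * (16 * M4 S t w u) := by
      rw [← Finset.sum_sub_distrib]
      refine (Finset.abs_sum_le_sum_abs _ _).trans ?_
      have e : ∑ l ∈ Finset.range (S.K + 1), S.p l * (34 ^ k * (2 * C) * (16 * M4 S t w u)) =
          34 ^ k * (2 * C) * (16 * M4 S t w u) := by
        rw [← Finset.sum_mul, sum_p hS, one_mul]
      rw [← e]
      refine Finset.sum_le_sum fun l hl => ?_
      have hl' : l ≤ S.K := by
        have := Finset.mem_range.1 hl
        omega
      rw [← mul_sub, abs_mul, abs_of_nonneg (p_nonneg hS hl)]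
      refine mul_le_mul_of_nonneg_left ?_ (p_nonneg hS hl)
      have hpow : ∀ (a b : ℝ), 0 ≤ a → 0 ≤ b → a ^ (j + 1) * b ≤ (a + b) ^ (j + 1 + 1) := by
        intro a b ha hb
        rw [pow_succ (a + b)]
        exact mul_le_mul (pow_le_pow_left₀ ha (by linarith) _) (by linarith) hb
          (pow_nonneg (by linarith) _)
      have h3 := ih (dbl_reg hS hl') (f := fun w => f w.1 + f w.2)
        (f' := fun w => f' w.1 + f' w.2) (g := fun w => g w.1 * f w.2)
        (g' := fun w => g' w.1 * f' w.2) (w := fun y => w y.1 + w y.2)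
        (u := fun y => u y.1 + u y.2) (C := 2 * C) (t := t) (j + 1) (by omega) ht (by linarith)
        (fun y => add_nonneg (hw0 _) (hw0 _))
        (fun y => (abs_add_le _ _).trans (add_le_add (hf _) (hf _)))
        (fun y => (abs_add_le _ _).trans (add_le_add (hf' _) (hf' _)))
        (fun y => by
          have e : f y.1 + f y.2 - (f' y.1 + f' y.2) = (f y.1 - f' y.1) + (f y.2 - f' y.2) := by
            ring
          rw [e]
          exact (abs_add_le _ _).trans (add_le_add (hff _) (hff _)))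
        (fun y => by
          rw [abs_mul]
          have h2 := mul_le_mul (hg y.1) (hf y.2) (abs_nonneg _)
            (mul_nonneg hC (pow_nonneg (hu _) _))
          have h3 := mul_le_mul_of_nonneg_left (hpow _ _ (hu y.1) (hu y.2)) hC
          have h4 : 0 ≤ C * (u y.1 + u y.2) ^ (j + 1 + 1) :=
            mul_nonneg hC (pow_nonneg (add_nonneg (hu _) (hu _)) _)
          linarith)
        (fun y => by
          rw [abs_mul]
          have h2 := mul_le_mul (hg' y.1) (hf' y.2) (abs_nonneg _)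
            (mul_nonneg hC (pow_nonneg (hu _) _))
          have h3 := mul_le_mul_of_nonneg_left (hpow _ _ (hu y.1) (hu y.2)) hC
          have h4 : 0 ≤ C * (u y.1 + u y.2) ^ (j + 1 + 1) :=
            mul_nonneg hC (pow_nonneg (add_nonneg (hu _) (hu _)) _)
          linarith)
        (fun y => by
          have e : g y.1 * f y.2 - g' y.1 * f' y.2 =
              (g y.1 - g' y.1) * f y.2 + g' y.1 * (f y.2 - f' y.2) := by ring
          rw [e]
          refine (abs_add_le _ _).trans ?_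
          rw [abs_mul, abs_mul]
          have a1 := hu y.1
          have a2 := hu y.2
          have a3 := hw0 y.1
          have a4 := hw0 y.2
          have h2 := mul_le_mul (hgg y.1) (hf y.2) (abs_nonneg _)
            (mul_nonneg hC (mul_nonneg a3 (pow_nonneg a1 _)))
          have h3 := mul_le_mul (hg' y.1) (hff y.2) (abs_nonneg _)
            (mul_nonneg hC (pow_nonneg a1 _))
          have p1 : u y.1 ^ j * u y.2 ≤ (u y.1 + u y.2) ^ (j + 1) := by
            rw [pow_succ]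
            exact mul_le_mul (pow_le_pow_left₀ a1 (by linarith) _) (by linarith) a2
              (pow_nonneg (by linarith) _)
          have p2 : u y.1 ^ (j + 1) ≤ (u y.1 + u y.2) ^ (j + 1) :=
            pow_le_pow_left₀ a1 (by linarith) _
          have p3 : 0 ≤ (u y.1 + u y.2) ^ (j + 1) := pow_nonneg (by linarith) _
          have q1 : w y.1 * (u y.1 ^ j * u y.2) ≤ (w y.1 + w y.2) * (u y.1 + u y.2) ^ (j + 1) :=
            mul_le_mul (by linarith) p1 (mul_nonneg (pow_nonneg a1 _) a2) (by linarith)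
          have q2 : w y.2 * u y.1 ^ (j + 1) ≤ (w y.1 + w y.2) * (u y.1 + u y.2) ^ (j + 1) :=
            mul_le_mul (by linarith) p2 (pow_nonneg a1 _) (by linarith)
          have q3 := mul_le_mul_of_nonneg_left q1 hC
          have q4 := mul_le_mul_of_nonneg_left q2 hC
          refine (add_le_add h2 h3).trans ?_
          have r1 : C * (w y.1 * u y.1 ^ j) * u y.2 = C * (w y.1 * (u y.1 ^ j * u y.2)) := by ring
          have r2 : C * u y.1 ^ (j + 1) * w y.2 = C * (w y.2 * u y.1 ^ (j + 1)) := by ring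
          rw [r1, r2]
          show _ ≤ 2 * C * ((w y.1 + w y.2) * (u y.1 + u y.2) ^ (j + 1))
          linarith)
      refine h3.trans ?_
      refine mul_le_mul_of_nonneg_left (M4_dbl hS hl' ht w u) ?_
      positivity
    show |Dk k S f (fun x => g x * f x) 0 -
        ∑ l ∈ Finset.range (S.K + 1), S.p l * Dk k (dbl S l) (fun w => f w.1 + f w.2)
          (fun w => g w.1 * f w.2) 0 - (Dk k S f' (fun x => g' x * f' x) 0 -
        ∑ l ∈ Finset.range (S.K + 1), S.p l * Dk k (dbl S l) (fun w => f' w.1 + f' w.2)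
          (fun w => g' w.1 * f' w.2) 0)| ≤ 34 ^ (k + 1) * C * M4 S t w u
    have e : ∀ a b c d : ℝ, a - b - (c - d) = (a - c) - (b - d) := fun a b c d => by ring
    rw [e]
    refine (abs_sub _ _).trans ((add_le_add h1 h2).trans (le_of_eq ?_))
    rw [pow_succ]
    ring

end Vale.Agent.P146.H826
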