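import Vale.Agent.P146.H784.Trf2

set_option linter.all false

/-!
First order Gaussian interpolation for systems: if the bracket `bk` is at distance at most `W` from
the constant `d`, then the free energies at the two ends differ by `d / 2` up to `π / 4 * W`.
-/

open MeasureTheory ProbabilityTheory Filter Topology

namespace Vale.Agent.P146.H826

open Vale.Agent.P157 Vale.Agent.P157.Lv Vale.Agent.P157.Lv.Sy
open Vale.Agent.P146.H784

variable {ι X : Type} [Fintype ι] [DecidableEq ι] [Fintype X] [DecidableEq X] [Nonempty X]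
  {S : Sy ι X} {α β : X → ι → ℝ}

/-- the quadratic Taylor bound -/
lemma tay2 {f f' : ℝ → ℝ} {B t t' : ℝ} (hf : ∀ y, HasDerivAt f (f' y) y)
    (hB : ∀ y y', |f' y - f' y'| ≤ B * |y - y'|) (htt : t ≤ t') :
    |f t' - f t - (t' - t) * f' t| ≤ B * (t' - t) ^ 2 := by
  have hB0 : 0 ≤ B := by
    have h := hB 1 0
    have h1 : (0 : ℝ) ≤ B * |1 - 0| := (abs_nonneg _).trans h
    simpa using h1
  have h1 : ∀ y ∈ Set.Icc t t', HasDerivWithinAt (fun y => f y - y * f' t) (f' y - f' t)
      (Set.Icc t t') y := by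
    intro y _
    have h := (hf y).sub ((hasDerivAt_id y).mul_const (f' t))
    simp only [one_mul] at h
    exact h.hasDerivWithinAt
  have h2 : ∀ y ∈ Set.Icc t t', ‖f' y - f' t‖ ≤ B * (t' - t) := by
    intro y hy
    rw [Real.norm_eq_abs]
    refine (hB y t).trans (mul_le_mul_of_nonneg_left ?_ hB0)
    rw [abs_of_nonneg (by linarith [hy.1])]
    linarith [hy.2]
  have h3 := (convex_Icc t t').norm_image_sub_le_of_norm_hasDerivWithin_le h1 h2
    (Set.left_mem_Icc.2 htt) (Set.right_mem_Icc.2 htt)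
  rw [Real.norm_eq_abs, Real.norm_eq_abs, abs_of_nonneg (by linarith : (0:ℝ) ≤ t' - t)] at h3
  have e : f t' - t' * f' t - (f t - t * f' t) = f t' - f t - (t' - t) * f' t := by ring
  rw [e] at h3
  linarith [h3, sq (t' - t), mul_assoc B (t' - t) (t' - t)]

lemma sc_bd {t : ℝ} (h0 : 0 ≤ t) (h1 : t ≤ Real.pi / 2) :
    0 ≤ Real.sin t * Real.cos t ∧ Real.sin t * Real.cos t ≤ 1 / 2 := by
  have hs : 0 ≤ Real.sin t := Real.sin_nonneg_of_nonneg_of_le_pi h0 (by linarith [Real.pi_pos])
  have hc : 0 ≤ Real.cos t := Real.cos_nonneg_of_neg_pi_div_two_le_of_le (by linarith [Real.pi_pos]) h1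
  refine ⟨mul_nonneg hs hc, ?_⟩
  nlinarith [sq_nonneg (Real.sin t - Real.cos t), Real.sin_sq_add_cos_sq t]

/-- **First order interpolation.** -/
theorem fe_rot {D : ι → (ι → ℝ) → X → ℝ} (hS : S.RegD D) (hs : Lv.Sep D α β) {d W : ℝ}
    (hW : ∀ θ, 0 ≤ θ → θ ≤ Real.pi / 2 → |bk S α β θ - d| ≤ W) :
    |(iS S α β (Real.pi / 2)).fe - (iS S α β 0).fe - d / 2| ≤ Real.pi / 4 * W := by
  obtain ⟨M, hM, hstep⟩ := step2 hS hs
  obtain ⟨B, hB, hbd⟩ := bk_bdd hS α β
  have hpi := Real.pi_pos
  obtain ⟨f, hf⟩ : ∃ f : ℝ → ℝ, f = fun t => d * (Real.sin t) ^ 2 / 2 := ⟨_, rfl⟩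
  obtain ⟨f', hf'⟩ : ∃ f' : ℝ → ℝ, f' = fun t => Real.sin t * Real.cos t * d := ⟨_, rfl⟩
  have hd : ∀ y, HasDerivAt f (f' y) y := by
    intro y
    rw [hf, hf']
    have h := (((Real.hasDerivAt_sin y).pow 2).const_mul d).div_const 2
    refine h.congr_deriv ?_
    simp only [Nat.cast_ofNat]
    ring
  have hL : ∀ y y', |f' y - f' y'| ≤ |d| * |y - y'| := by
    intro y y'
    rw [hf']
    have e : Real.sin y * Real.cos y * d - Real.sin y' * Real.cos y' * d =
        d * ((Real.sin (2 * y) - Real.sin (2 * y')) / 2) := by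
      rw [Real.sin_two_mul, Real.sin_two_mul]
      ring
    show |Real.sin y * Real.cos y * d - Real.sin y' * Real.cos y' * d| ≤ _
    rw [e, abs_mul]
    refine mul_le_mul_of_nonneg_left ?_ (abs_nonneg d)
    rw [abs_div, abs_two]
    have h := Real.lipschitzWith_sin.dist_le_mul (2 * y) (2 * y')
    rw [Real.dist_eq, Real.dist_eq] at h
    have e2 : 2 * y - 2 * y' = 2 * (y - y') := by ring
    rw [e2, abs_mul, abs_two] at h
    simp only [NNReal.coe_one, one_mul] at h
    linarith
  have hT : ∀ t t', t ≤ t' → |f t' - f t - (t' - t) * f' t| ≤ |d| * (t' - t) ^ 2 :=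
    fun t t' h => tay2 hd hL h
  have hT' : ∀ t t', t ≤ t' → |f t' - f t - (t' - t) * f' t'| ≤ 2 * |d| * (t' - t) ^ 2 := by
    intro t t' h
    have h1 := hT t t' h
    have h2 := hL t' t
    rw [abs_of_nonneg (by linarith : (0:ℝ) ≤ t' - t)] at h2
    have h3 := abs_le.1 h1
    have h4 := abs_le.1 h2
    have h5 : (t' - t) * (f' t' - f' t) ≤ (t' - t) * (|d| * (t' - t)) :=
      mul_le_mul_of_nonneg_left h4.2 (by linarith)
    have h6 : (t' - t) * (-(|d| * (t' - t))) ≤ (t' - t) * (f' t' - f' t) :=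
      mul_le_mul_of_nonneg_left h4.1 (by linarith)
    rw [abs_le]
    constructor <;> nlinarith
  have hub : ∀ t, 0 ≤ t → t ≤ Real.pi / 2 → |Real.sin t * Real.cos t * bk S α β t| ≤ B + |d| := by
    intro t h0 h1
    obtain ⟨h2, h3⟩ := sc_bd h0 h1
    rw [abs_mul, abs_of_nonneg h2]
    have := hbd t
    have h4 := mul_le_mul h3 this (abs_nonneg _) (by norm_num)
    have := abs_nonneg d
    linarith
  have hwb : ∀ t, 0 ≤ t → t ≤ Real.pi / 2 → |f' t| ≤ B + |d| := by
    intro t h0 h1
    obtain ⟨h2, h3⟩ := sc_bd h0 h1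
    rw [hf']
    show |Real.sin t * Real.cos t * d| ≤ _
    rw [abs_mul, abs_of_nonneg h2]
    have h4 := mul_le_mul_of_nonneg_right h3 (abs_nonneg d)
    have := abs_nonneg d
    linarith
  have hend : f (Real.pi / 2) = d / 2 ∧ f 0 = 0 := by
    rw [hf]
    simp
  have h1 := grid (U := fun t => (iS S α β t).fe) (W := f)
    (u := fun t => Real.sin t * Real.cos t * bk S α β t) (w := f') (lo := 0) (hi := Real.pi / 2)
    (M := M + 2 * |d|) (B0 := B + |d|) (b := W / 2) (by positivity)
    (fun t t' _ h _ => by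
      have := (hstep t t' h).1
      have := mul_nonneg (sq_nonneg (t' - t)) (abs_nonneg d)
      linarith)
    (fun t t' _ h _ => by
      have h1 := (abs_le.1 (hT t t' h)).1
      have h2 := mul_nonneg (sq_nonneg (t' - t)) hM
      have h3 := mul_nonneg (sq_nonneg (t' - t)) (abs_nonneg d)
      linarith)
    (fun t h0 h1 => by
      obtain ⟨h2, h3⟩ := sc_bd h0 h1
      have h4 := hW t h0 h1
      have h5 := (abs_le.1 h4).2
      have h6 : Real.sin t * Real.cos t * (bk S α β t - d) ≤ Real.sin t * Real.cos t * W :=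
        mul_le_mul_of_nonneg_left h5 h2
      have h7 : Real.sin t * Real.cos t * W ≤ 1 / 2 * W :=
        mul_le_mul_of_nonneg_right h3 ((abs_nonneg _).trans h4)
      rw [hf']
      show Real.sin t * Real.cos t * bk S α β t - Real.sin t * Real.cos t * d ≤ W / 2
      linarith)
    hub hwb
  have h2 := grid (U := f) (W := fun t => (iS S α β t).fe)
    (u := f') (w := fun t => Real.sin t * Real.cos t * bk S α β t) (lo := 0) (hi := Real.pi / 2)
    (M := M + 2 * |d|) (B0 := B + |d|) (b := W / 2) (by positivity)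
    (fun t t' _ h _ => by
      have h1 := (abs_le.1 (hT' t t' h)).2
      have h2 := mul_nonneg (sq_nonneg (t' - t)) hM
      linarith)
    (fun t t' _ h _ => by
      have := (hstep t t' h).2
      have h3 := mul_nonneg (sq_nonneg (t' - t)) (abs_nonneg d)
      linarith)
    (fun t h0 h1 => by
      obtain ⟨h2, h3⟩ := sc_bd h0 h1
      have h4 := hW t h0 h1
      have h5 := (abs_le.1 h4).1
      have h6 : Real.sin t * Real.cos t * (d - bk S α β t) ≤ Real.sin t * Real.cos t * W :=
        mul_le_mul_of_nonneg_left (by linarith) h2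
      have h7 : Real.sin t * Real.cos t * W ≤ 1 / 2 * W :=
        mul_le_mul_of_nonneg_right h3 ((abs_nonneg _).trans h4)
      rw [hf']
      show Real.sin t * Real.cos t * d - Real.sin t * Real.cos t * bk S α β t ≤ W / 2
      linarith)
    hwb hub
  rw [hend.1, hend.2] at h1 h2
  rw [abs_le]
  constructor <;> linarith

end Vale.Agent.P146.H826
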