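import Vale.Agent.P146.Bd4.B1

set_option linter.all false

/-!
The fourth derivative at the origin of the Parisi iteration, for every choice of the exponents; the
fourth difference.
-/

open MeasureTheory ProbabilityTheory Filter Topology Set

namespace Vale.Agent.P146.H826

open Vale.Agent.P157.Par
open Vale.Agent.P146.Gap
open Vale.Agent.P146.Pw2
open Vale.Agent.P146.Lb
open Vale.Agent.P146.Sh
open Vale.Agent.P367.Cl

/-- **the fourth derivative of the Parisi iteration at the origin**, any exponents -/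
theorem kk_gen (b : ℝ) : ∃ c : ℝ, 0 < c ∧ ∀ (n : ℕ) (m r : ℕ → ℝ), Exponents n m → BPath b n r →
    iteratedDeriv 4 (cascade m r n lc) 0 ≤ -c := by
  obtain ⟨K, hK1, hK⟩ := fl_bk b
  have hK0 : 0 < K := by linarith
  set a : ℝ := Real.exp (-(2 * b ^ 2)) with ha
  have ha0 : 0 < a := Real.exp_pos _
  refine ⟨2 * a * (1 / K) ^ 2, by positivity, fun n m r hm hr => ?_⟩
  obtain ⟨hF, -⟩ := hK n m r hm hr
  have hA := hF 0 (Nat.zero_le n)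
  have hv := vari_d2_01 hA.adm 0
  have h0 : 1 / K ≤ iteratedDeriv 2 (Fl n m r 0) 0 := by
    rw [div_le_iff₀ hK0]
    linarith [hA.low0]
  have e : Fl n m r 0 = cascade m r n lc := by
    simp only [Fl, Nat.zero_add, Nat.sub_zero]
  have hlt : ∀ l, 1 ≤ l → l ≤ n → 0 < m l ∧ m l ≤ 1 := fun l h1 h2 => by
    have h3 := sp7_exp_of hm (l - 1) (by omega)
    have e1 : l - 1 + 1 = l := by omega
    rw [e1] at h3
    exact h3
  have hb := inv_cascade (n := n) (m := m) (r := r) (c := 1) good_lc le_rfl zero_lt_one le_rfl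
    inv_lc (fun l h1 h2 => (hlt l h1 h2).1) (fun l _ h2 => (hm.2.2 l h2.le).le)
    (fun l h1 h2 => (hlt l h1 h2).2) hr.2.1.2 0
  rw [← e, one_mul, hr.1, sub_zero] at hb
  have h3 : iteratedDeriv 3 (Fl n m r 0) 0 = 0 := GoodX.good_odd hA.adm.even (by decide)
  unfold bet at hb
  rw [h3, zero_div] at hb
  have hc : a ≤ Real.exp (-(2 * r n)) := Real.exp_le_exp.2 (by linarith only [hr.2.2])
  set F2 := iteratedDeriv 2 (Fl n m r 0) 0 with hF2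
  have h4 : iteratedDeriv 4 (Fl n m r 0) 0 / F2 ≤ -(2 * Real.exp (-(2 * r n)) * F2) := by
    linarith only [hb]
  rw [div_le_iff₀ hv.1] at h4
  have h5 : a * (1 / K) ^ 2 ≤ Real.exp (-(2 * r n)) * F2 ^ 2 :=
    mul_le_mul hc (pow_le_pow_left₀ (by positivity) h0 2) (by positivity) (Real.exp_pos _).le
  rw [← e]
  linarith only [h5, h4]

/-! ### The fourth difference -/

lemma rem_step {R R' : ℝ → ℝ} {B : ℝ} {k : ℕ} (hB0 : 0 ≤ B) (hd : ∀ x, HasDerivAt R (R' x) x)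
    (h0 : R 0 = 0) (hB : ∀ x, |R' x| ≤ B * |x| ^ k) (x : ℝ) : |R x| ≤ B * |x| ^ (k + 1) := by
  have hx0 := abs_nonneg x
  have hB' : ∀ y ∈ Icc (-|x|) |x|, ‖R' y‖ ≤ B * |x| ^ k := by
    intro y hy
    rw [Real.norm_eq_abs]
    have hy' : |y| ≤ |x| := abs_le.2 ⟨hy.1, hy.2⟩
    exact (hB y).trans (mul_le_mul_of_nonneg_left (pow_le_pow_left₀ (abs_nonneg y) hy' k) hB0)
  have h3 := (convex_Icc (-|x|) |x|).norm_image_sub_le_of_norm_hasDerivWithin_le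
    (fun y _ => (hd y).hasDerivWithinAt) hB' (x := 0) (y := x)
    ⟨by linarith, hx0⟩ ⟨neg_abs_le x, le_abs_self x⟩
  rw [h0, sub_zero, sub_zero, Real.norm_eq_abs, Real.norm_eq_abs] at h3
  rw [pow_succ, ← mul_assoc]
  exact h3

/-- Taylor -/
lemma tay5 {φ φ1 φ2 φ3 φ4 φ5 : ℝ → ℝ} {B : ℝ} (h1 : ∀ x, HasDerivAt φ (φ1 x) x)
    (h2 : ∀ x, HasDerivAt φ1 (φ2 x) x) (h3 : ∀ x, HasDerivAt φ2 (φ3 x) x)
    (h4 : ∀ x, HasDerivAt φ3 (φ4 x) x) (h5 : ∀ x, HasDerivAt φ4 (φ5 x) x)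
    (hB : ∀ x, |φ5 x| ≤ B) (x : ℝ) :
    |φ x - φ 0 - φ1 0 * x - φ2 0 * x ^ 2 / 2 - φ3 0 * x ^ 3 / 6 - φ4 0 * x ^ 4 / 24| ≤
      B * |x| ^ 5 := by
  have hB0 : 0 ≤ B := (abs_nonneg _).trans (hB 0)
  have r4 : ∀ x, |φ4 x - φ4 0| ≤ B * |x| ^ 1 := rem_step (R := fun x => φ4 x - φ4 0) (k := 0) hB0
    (fun x => (h5 x).sub_const _) (by simp) (fun x => by simpa using hB x)
  have r3 : ∀ x, |φ3 x - φ3 0 - φ4 0 * x| ≤ B * |x| ^ 2 :=
    rem_step (R := fun x => φ3 x - φ3 0 - φ4 0 * x) (k := 1) hB0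
    (fun x => by
      have := ((h4 x).sub_const (φ3 0)).sub ((hasDerivAt_id x).const_mul (φ4 0))
      refine this.congr_deriv ?_
      ring) (by simp) r4
  have r2 : ∀ x, |φ2 x - φ2 0 - φ3 0 * x - φ4 0 * x ^ 2 / 2| ≤ B * |x| ^ 3 :=
    rem_step (R := fun x => φ2 x - φ2 0 - φ3 0 * x - φ4 0 * x ^ 2 / 2) (k := 2) hB0
    (fun x => by
      have := (((h3 x).sub_const (φ2 0)).sub ((hasDerivAt_id x).const_mul (φ3 0))).sub
        ((((hasDerivAt_id x).pow 2).const_mul (φ4 0)).div_const 2)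
      refine this.congr_deriv ?_
      simp only [id_eq]
      push_cast
      ring) (by simp) r3
  have r1 : ∀ x, |φ1 x - φ1 0 - φ2 0 * x - φ3 0 * x ^ 2 / 2 - φ4 0 * x ^ 3 / 6| ≤ B * |x| ^ 4 :=
    rem_step (R := fun x => φ1 x - φ1 0 - φ2 0 * x - φ3 0 * x ^ 2 / 2 - φ4 0 * x ^ 3 / 6) (k := 3)
      hB0
    (fun x => by
      have := ((((h2 x).sub_const (φ1 0)).sub ((hasDerivAt_id x).const_mul (φ2 0))).sub
        ((((hasDerivAt_id x).pow 2).const_mul (φ3 0)).div_const 2)).sub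
        ((((hasDerivAt_id x).pow 3).const_mul (φ4 0)).div_const 6)
      refine this.congr_deriv ?_
      simp only [id_eq]
      push_cast
      ring) (by simp) r2
  exact rem_step (R := fun x => φ x - φ 0 - φ1 0 * x - φ2 0 * x ^ 2 / 2 - φ3 0 * x ^ 3 / 6 -
      φ4 0 * x ^ 4 / 24) (k := 4) hB0
    (fun x => by
      have := (((((h1 x).sub_const (φ 0)).sub ((hasDerivAt_id x).const_mul (φ1 0))).sub
        ((((hasDerivAt_id x).pow 2).const_mul (φ2 0)).div_const 2)).sub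
        ((((hasDerivAt_id x).pow 3).const_mul (φ3 0)).div_const 6)).sub
        ((((hasDerivAt_id x).pow 4).const_mul (φ4 0)).div_const 24)
      refine this.congr_deriv ?_
      simp only [id_eq]
      push_cast
      ring) (by simp) r1 x

/-- **the fourth difference** -/
theorem diff4 {φ φ1 φ2 φ3 φ4 φ5 : ℝ → ℝ} {B : ℝ} (h1 : ∀ x, HasDerivAt φ (φ1 x) x)
    (h2 : ∀ x, HasDerivAt φ1 (φ2 x) x) (h3 : ∀ x, HasDerivAt φ2 (φ3 x) x)
    (h4 : ∀ x, HasDerivAt φ3 (φ4 x) x) (h5 : ∀ x, HasDerivAt φ4 (φ5 x) x)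
    (hB : ∀ x, |φ5 x| ≤ B) {δ : ℝ} (hδ : 0 ≤ δ) :
    |φ (2 * δ) - 4 * φ δ + 6 * φ 0 - 4 * φ (-δ) + φ (-(2 * δ)) - δ ^ 4 * φ4 0| ≤
      72 * B * δ ^ 5 := by
  have t := tay5 h1 h2 h3 h4 h5 hB
  have a1 := t (2 * δ)
  have a2 := t δ
  have a3 := t (-δ)
  have a4 := t (-(2 * δ))
  rw [abs_neg] at a3 a4
  rw [abs_of_nonneg hδ] at a2 a3
  rw [abs_of_nonneg (by linarith : (0:ℝ) ≤ 2 * δ)] at a1 a4
  rw [abs_le] at a1 a2 a3 a4 ⊢
  constructor <;> nlinarith [a1.1, a1.2, a2.1, a2.2, a3.1, a3.2, a4.1, a4.2]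

/-- **comparison of the fourth derivatives** of two close functions -/
theorem diff4_cmp {φ φ1 φ2 φ3 φ4 φ5 ψ ψ1 ψ2 ψ3 ψ4 ψ5 : ℝ → ℝ} {B e c δ : ℝ}
    (h1 : ∀ x, HasDerivAt φ (φ1 x) x)
    (h2 : ∀ x, HasDerivAt φ1 (φ2 x) x) (h3 : ∀ x, HasDerivAt φ2 (φ3 x) x)
    (h4 : ∀ x, HasDerivAt φ3 (φ4 x) x) (h5 : ∀ x, HasDerivAt φ4 (φ5 x) x)
    (hB : ∀ x, |φ5 x| ≤ B) (g1 : ∀ x, HasDerivAt ψ (ψ1 x) x)
    (g2 : ∀ x, HasDerivAt ψ1 (ψ2 x) x) (g3 : ∀ x, HasDerivAt ψ2 (ψ3 x) x)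
    (g4 : ∀ x, HasDerivAt ψ3 (ψ4 x) x) (g5 : ∀ x, HasDerivAt ψ4 (ψ5 x) x)
    (hB' : ∀ x, |ψ5 x| ≤ B) (hδ : 0 < δ) (he : ∀ x, |x| ≤ 2 * δ → |φ x - ψ x - c| ≤ e) :
    |φ4 0 - ψ4 0| ≤ 16 * e / δ ^ 4 + 144 * B * δ := by
  have a := diff4 h1 h2 h3 h4 h5 hB hδ.le
  have b := diff4 g1 g2 g3 g4 g5 hB' hδ.le
  have e1 := he (2 * δ) (by rw [abs_of_pos (by linarith)])
  have e2 := he δ (by rw [abs_of_pos hδ]; linarith)
  have e3 := he 0 (by rw [abs_zero]; linarith)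
  have e4 := he (-δ) (by rw [abs_neg, abs_of_pos hδ]; linarith)
  have e5 := he (-(2 * δ)) (by rw [abs_neg, abs_of_pos (by linarith)])
  have key : |δ ^ 4 * (φ4 0 - ψ4 0)| ≤ 16 * e + 144 * B * δ ^ 5 := by
    rw [abs_le] at a b e1 e2 e3 e4 e5 ⊢
    constructor <;> linarith [a.1, a.2, b.1, b.2, e1.1, e1.2, e2.1, e2.2, e3.1, e3.2, e4.1, e4.2,
      e5.1, e5.2]
  rw [abs_mul, abs_of_pos (pow_pos hδ 4)] at key
  have hp := pow_pos hδ 4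
  rw [← sub_nonneg]
  have h6 : 16 * e / δ ^ 4 + 144 * B * δ - |φ4 0 - ψ4 0| =
      (16 * e + 144 * B * δ ^ 5 - δ ^ 4 * |φ4 0 - ψ4 0|) / δ ^ 4 := by
    field_simp
  rw [h6]
  exact div_nonneg (by linarith) hp.le

end Vale.Agent.P146.H826
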