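import Vale.Agent.P146.H826.Tra
import Vale.Agent.P146.H826.Int1
import Vale.Agent.P146.H826.Fdk
import Vale.Agent.P146.H826.Parm

set_option linter.all false

/-!
The fourth derivative in the external field of the free energy of a system with one more spin.
-/

open MeasureTheory ProbabilityTheory Filter Topology

namespace Vale.Agent.P146.H826

open Vale.Agent.P157 Vale.Agent.P157.Lv Vale.Agent.P157.Lv.Sy
open Vale.Agent.P157.Par (Path Exponents incr incr_zero_def incr_succ_def cascade gstep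
  cascade_succ_def)
open Vale.Agent.P146.Gap (lc)
open Vale.Agent.P146.H784 Vale.Agent.P146.R3.H501.Tr
open Vale.Agent.P146.Ub (cv)

/-! ### Derivatives -/

section der

variable {ι X : Type} [Fintype ι] [DecidableEq ι] [Fintype X] [DecidableEq X] [Nonempty X]
  {Q : Sy ι X}

theorem it_fe (hQ : Q.Reg) (f : X → ℝ) (k : ℕ) :
    iteratedDeriv (k + 1) (fun h => (ah Q f h).fe) = fun h => Dk k Q f f h := by
  induction k with
  | zero =>
    rw [zero_add, iteratedDeriv_one]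
    funext h
    exact (hd_fe hQ f h).deriv
  | succ k ih =>
    rw [iteratedDeriv_succ, ih]
    funext h
    exact (hd_Dk k hQ f f h).deriv

/-- comparison of the fourth derivatives of two free energies -/
theorem fe_cmp {ι' X' : Type} [Fintype ι'] [DecidableEq ι'] [Fintype X'] [DecidableEq X']
    [Nonempty X'] {Q' : Sy ι' X'} (hQ : Q.Reg) (hQ' : Q'.Reg) {f : X → ℝ} {f' : X' → ℝ}
    (hf : ∀ x, |f x| ≤ 1) (hf' : ∀ x, |f' x| ≤ 1) {c e δ : ℝ} (hδ : 0 < δ)
    (he : ∀ h, |h| ≤ 2 * δ → |(ah Q f h).fe - (ah Q' f' h).fe - c| ≤ e) :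
    |Dk 3 Q f f 0 - Dk 3 Q' f' f' 0| ≤ 16 * e / δ ^ 4 + 144 * 270 * δ := by
  have hb : ∀ {ι X : Type} [Fintype ι] [DecidableEq ι] [Fintype X] [DecidableEq X] [Nonempty X]
      {Q : Sy ι X} (hQ : Q.Reg) {f : X → ℝ} (hf : ∀ x, |f x| ≤ 1) (h : ℝ),
      |Dk 4 Q f f h| ≤ 270 := by
    intro ι X _ _ _ _ _ Q hQ f hf h
    refine (abs_Dk 4 hQ hf hf h).trans (le_of_eq ?_)
    simp only [cD]
    norm_num
  exact diff4_cmp (hd_fe hQ f) (hd_Dk 0 hQ f f) (hd_Dk 1 hQ f f) (hd_Dk 2 hQ f f)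
    (hd_Dk 3 hQ f f) (hb hQ hf) (hd_fe hQ' f') (hd_Dk 0 hQ' f' f') (hd_Dk 1 hQ' f' f')
    (hd_Dk 2 hQ' f' f') (hd_Dk 3 hQ' f' f') (hb hQ' hf') hδ he

end der

/-! ### Change of the coordinates and of the configurations -/

section emb

variable {ι ι' X X' : Type} [Fintype ι] [DecidableEq ι] [Fintype ι'] [DecidableEq ι']
  [Fintype X] [DecidableEq X] [Nonempty X] [Fintype X'] [DecidableEq X'] [Nonempty X']
  {S : Sy ι X} {S' : Sy ι' X'} {j : ι → ι'} {c : ℝ}

lemma lg_emb (hS : S.Reg) (hj : Emb S j S'.lev) (hK : S'.K = S.K) (hm : S'.m = S.m)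
    (htop : ∀ z, S'.top z = S.top (fun e => z (j e)) + c) {l : ℕ} (hl : l ≤ S.K) (z : ι' → ℝ) :
    S'.lg l z = S.lg l (fun e => z (j e)) + c := by
  have key : ∀ l ≤ S.K, ∀ z, S'.lg l z = S.lg l (fun e => z (j e)) + c := by
    refine down_ind (P := fun l => ∀ z, S'.lg l z = S.lg l (fun e => z (j e)) + c) ?_ ?_
    · intro z
      have e1 : S'.lg S.K = S'.top := by rw [← hK]; exact lg_top S'
      rw [e1, lg_top S]
      exact htop z
    · intro l hl ih z
      have hm0 : 0 < S.m (l + 1) := hS.m_pos (by omega) (by omega)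
      rw [lg_step S' (show l < S'.K by omega), lg_step S hl]
      unfold stp
      rw [hm]
      have e2 : (fun z => Real.exp (S.m (l + 1) * S'.lg (l + 1) z)) = fun z =>
          Real.exp (S.m (l + 1) * c) *
            (fun u => Real.exp (S.m (l + 1) * S.lg (l + 1) u)) (fun e => z (j e)) := by
        funext z
        rw [ih z, ← Real.exp_add]
        congr 1
        ring
      have hEG : EG fun u => Real.exp (S.m (l + 1) * S.lg (l + 1) u) :=
        (hS.lip_lg (l := l + 1) hl).exp_eg _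
      rw [e2, J_const_mul, J_j hj l hEG.meas, Real.log_mul (Real.exp_pos _).ne'
        (J_pos hEG (fun _ => Real.exp_pos _) _).ne', Real.log_exp]
      field_simp
      ring
  exact key l hl z

theorem fe_emb (hS : S.Reg) (hj : Emb S j S'.lev) (hK : S'.K = S.K) (hm : S'.m = S.m)
    (htop : ∀ z, S'.top z = S.top (fun e => z (j e)) + c) : S'.fe = S.fe + c := by
  unfold fe
  have e1 : ∀ z, S'.lg 0 z = S.lg 0 (fun e => z (j e)) + c :=
    fun z => lg_emb hS hj hK hm htop (Nat.zero_le _) z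
  simp only [e1]
  rw [integral_add (lip_j (hS.lip_lg (Nat.zero_le _)) j).eg.integrable (integrable_const _),
    int_jn hj.inj (hS.lip_lg (Nat.zero_le _)).measurable]
  simp

end emb

/-! ### The cascade -/

lemma cascade_shift (m r : ℕ → ℝ) (h : ℝ) : ∀ (l : ℕ) (F : ℝ → ℝ) (x : ℝ),
    cascade m r l (fun x => F (x + h)) x = cascade m r l F (x + h) := by
  intro l
  induction l with
  | zero => intro F x; rfl
  | succ l ih =>
    intro F x
    rw [cascade_succ_def, cascade_succ_def, ← ih]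
    congr 1
    funext y
    unfold gstep
    simp only [add_right_comm]

lemma it_casc (m r : ℕ → ℝ) (l : ℕ) (C : ℝ) (G : ℝ → ℝ) :
    iteratedDeriv 4 (fun h => C + G h) 0 = iteratedDeriv 4 G 0 := by
  rw [iteratedDeriv_succ' (n := 3), iteratedDeriv_succ' (n := 3)]
  have e : deriv (fun h => C + G h) = deriv G := by
    funext h
    exact deriv_const_add C
  rw [e]

/-! ### The interpolation -/

section main

variable {ι ρ Y : Type} [Fintype ι] [DecidableEq ι] [Fintype ρ] [DecidableEq ρ]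
  [Fintype Y] [DecidableEq Y] [Nonempty Y] {S0 : Sy ι Y} {lr : ρ → ℕ} {α : Y → ρ → ℝ}
  {s X : Y → ℝ} {r : ℕ → ℝ} {b v0 : ℝ}

lemma SR_eq (S0 : Sy ι Y) (lr : ρ → ℕ) (α : Y → ρ → ℝ) (f : Y → ℝ) (h : ℝ) :
    SR S0 lr α f h = Sf S0 Sum.inl (Sum.elim S0.lev lr)
      (fun y => Sum.elim (fun _ => 0) (α y)) (fun y => h * f y) := by
  unfold SR Sf Sb Sy.wH
  congr 1
  funext z x
  congr 2
  unfold lin
  rw [Fintype.sum_sum_type]
  simp

/-- the system with the row, without external field -/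
noncomputable def SQ (S0 : Sy ι Y) (lr : ρ → ℕ) (α : Y → ρ → ℝ) : Sy (ι ⊕ ρ) (Y × Bool) :=
  SR S0 lr α (fun _ => 0) 0

lemma emb_inl (hS : S0.Reg) (hlr : ∀ i, lr i ≤ S0.K) :
    Emb S0 (Sum.inl : ι → ι ⊕ ρ) (Sum.elim S0.lev lr) where
  inj := Sum.inl_injective
  lv := fun _ => rfl
  le := by
    rintro (e | e)
    · exact hS.lev e
    · exact hlr e

lemma SR_reg (hS : S0.Reg) (hlr : ∀ i, lr i ≤ S0.K) (α : Y → ρ → ℝ) (f : Y → ℝ) (h : ℝ) :
    (SR S0 lr α f h).Reg := by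
  rw [SR_eq]
  exact Sf_reg hS (emb_inl hS hlr) _ _

/-- the external field as a perturbation -/
lemma SR_ah (S0 : Sy ι Y) (lr : ρ → ℕ) (α : Y → ρ → ℝ) (f : Y → ℝ) (h : ℝ) :
    SR S0 lr α f h = ah (SQ S0 lr α) (fun x => sgn x.2 * f x.1) h := by
  unfold ah ad SQ SR Sy.wH
  congr 1
  funext z x
  ring

/-- all the coordinates: those of `S0`, of the row, of the tree -/
abbrev II (ι ρ : Type) (K : ℕ) : Type := (ι ⊕ ρ) ⊕ Fin (K + 1)

/-- the levels -/
def Lv3 (S0 : Sy ι Y) (lr : ρ → ℕ) : II ι ρ S0.K → ℕ :=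
  Sum.elim (Sum.elim S0.lev lr) (fun t => (t : ℕ))

/-- the row field -/
noncomputable def gR (K : ℕ) (α : Y → ρ → ℝ) (y : Y) : II ι ρ K → ℝ :=
  Sum.elim (Sum.elim (fun _ => 0) (α y)) (fun _ => 0)

/-- the tree field -/
noncomputable def gT (K : ℕ) (s : Y → ℝ) (r : ℕ → ℝ) (y : Y) : II ι ρ K → ℝ :=
  Sum.elim (fun _ => 0) (fun t => s y * √(incr r t))

lemma emb3 (hS : S0.Reg) (hlr : ∀ i, lr i ≤ S0.K) :
    Emb S0 (fun e => (Sum.inl (Sum.inl e) : II ι ρ S0.K)) (Lv3 S0 lr) where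
  inj := Sum.inl_injective.comp Sum.inl_injective
  lv := fun _ => rfl
  le := by
    rintro ((e | e) | e)
    · exact hS.lev e
    · exact hlr e
    · exact Nat.lt_succ_iff.1 e.2

/-- the interpolating system -/
noncomputable def SI (S0 : Sy ι Y) (lr : ρ → ℕ) (α : Y → ρ → ℝ) (s : Y → ℝ) (r : ℕ → ℝ)
    (θ h : ℝ) : Sy (II ι ρ S0.K) (Y × Bool) :=
  Sf S0 (fun e => Sum.inl (Sum.inl e)) (Lv3 S0 lr)
    (fun y e => Real.sin θ * gR S0.K α y e + Real.cos θ * gT S0.K s r y e) (fun y => h * s y)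

/-- the base of the interpolation -/
noncomputable def SB (S0 : Sy ι Y) (lr : ρ → ℕ) (s : Y → ℝ) (h : ℝ) :
    Sy (II ι ρ S0.K) (Y × Bool) :=
  Sf S0 (fun e => Sum.inl (Sum.inl e)) (Lv3 S0 lr) (fun _ _ => 0) (fun y => h * s y)

/-- the fields with the sign of the additional spin -/
noncomputable def sg2 {I : Type} (g : Y → I → ℝ) : Y × Bool → I → ℝ := fun x e => sgn x.2 * g x.1 e

lemma iS_eq (θ h : ℝ) : iS (SB S0 lr s h) (sg2 (gR S0.K α)) (sg2 (gT S0.K s r)) θ =
    SI S0 lr α s r θ h := by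
  unfold iS SB SI Sf Sb Sy.wH it
  congr 1
  funext z x
  show S0.H (fun e => z (Sum.inl (Sum.inl e))) x.1 + sgn x.2 * (lin (fun _ => 0) z + h * s x.1) +
    (Real.sin θ * lin (sg2 (gR S0.K α) x) z + Real.cos θ * lin (sg2 (gT S0.K s r) x) z) =
    S0.H (fun e => z (Sum.inl (Sum.inl e))) x.1 + sgn x.2 * (lin (fun e =>
      Real.sin θ * gR S0.K α x.1 e + Real.cos θ * gT S0.K s r x.1 e) z + h * s x.1)
  have e1 : lin (sg2 (gR S0.K α) x) z = sgn x.2 * lin (gR S0.K α x.1) z := by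
    unfold lin sg2
    rw [Finset.mul_sum]
    exact Finset.sum_congr rfl fun e _ => by ring
  have e2 : lin (sg2 (gT S0.K s r) x) z = sgn x.2 * lin (gT S0.K s r x.1) z := by
    unfold lin sg2
    rw [Finset.mul_sum]
    exact Finset.sum_congr rfl fun e _ => by ring
  have e3 : lin (fun e => Real.sin θ * gR S0.K α x.1 e + Real.cos θ * gT S0.K s r x.1 e) z =
      Real.sin θ * lin (gR S0.K α x.1) z + Real.cos θ * lin (gT S0.K s r x.1) z := by
    unfold lin
    rw [Finset.mul_sum, Finset.mul_sum, ← Finset.sum_add_distrib]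
    exact Finset.sum_congr rfl fun e _ => by ring
  have e4 : lin (fun _ => 0) z = 0 := by
    unfold lin
    simp
  rw [e1, e2, e3, e4]
  ring

/-- the partial derivatives of the base -/
noncomputable def DB (K : ℕ) (D : ι → (ι → ℝ) → Y → ℝ) :
    II ι ρ K → (II ι ρ K → ℝ) → Y × Bool → ℝ :=
  fun e z x => match e with
    | Sum.inl (Sum.inl i) => D i (fun e => z (Sum.inl (Sum.inl e))) x.1
    | _ => 0

lemma SB_regD {D : ι → (ι → ℝ) → Y → ℝ} (hS : S0.RegD D) (hlr : ∀ i, lr i ≤ S0.K) (s : Y → ℝ)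
    (h : ℝ) : (SB S0 lr s h).RegD (DB S0.K D) where
  toReg := Sf_reg hS.toReg (emb3 hS.toReg hlr) _ _
  pd := by
    intro e x z t
    have hH : ∀ z, (SB S0 lr s h).H z x = S0.H (fun e => z (Sum.inl (Sum.inl e))) x.1 +
        sgn x.2 * (0 + h * s x.1) := by
      intro z
      show S0.H (fun e => z (Sum.inl (Sum.inl e))) x.1 + sgn x.2 * (lin (fun _ => 0) z +
        h * s x.1) = _
      have : lin (fun _ => 0) z = 0 := by
        unfold lin
        simp
      rw [this]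
    simp only [hH]
    rcases e with (i | i) | i
    · have e1 : ∀ t : ℝ, (fun e => Function.update z (Sum.inl (Sum.inl i)) t
          (Sum.inl (Sum.inl e) : II ι ρ S0.K)) =
          Function.update (fun e => z (Sum.inl (Sum.inl e))) i t := by
        intro t
        funext e
        by_cases he : e = i
        · subst he
          rw [Function.update_self, Function.update_self]
        · rw [Function.update_of_ne he, Function.update_of_ne]
          intro hc
          exact he (Sum.inl_injective (Sum.inl_injective hc))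
      simp only [e1]
      have h1 := hS.pd i x.1 (fun e => z (Sum.inl (Sum.inl e))) t
      refine (h1.add_const (sgn x.2 * (0 + h * s x.1))).congr_deriv ?_
      show _ = D i (fun e => Function.update z (Sum.inl (Sum.inl i)) t
          (Sum.inl (Sum.inl e) : II ι ρ S0.K)) x.1
      rw [e1]
    · have e1 : ∀ t : ℝ, (fun e => Function.update z (Sum.inl (Sum.inr i)) t
          (Sum.inl (Sum.inl e) : II ι ρ S0.K)) = fun e => z (Sum.inl (Sum.inl e)) := by
        intro t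
        funext e
        rw [Function.update_of_ne]
        intro hc
        exact absurd (Sum.inl_injective hc) (by simp)
      simp only [e1]
      exact hasDerivAt_const _ _
    · have e1 : ∀ t : ℝ, (fun e => Function.update z (Sum.inr i) t
          (Sum.inl (Sum.inl e) : II ι ρ S0.K)) = fun e => z (Sum.inl (Sum.inl e)) := by
        intro t
        funext e
        rw [Function.update_of_ne]
        simp
      simp only [e1]
      exact hasDerivAt_const _ _
  md := by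
    intro e x
    rcases e with (i | i) | i
    · exact (hS.md i x.1).comp (by fun_prop)
    · exact measurable_const
    · exact measurable_const
  bd := by
    obtain ⟨C, hC⟩ := hS.bd
    refine ⟨|C|, fun e z x => ?_⟩
    rcases e with (i | i) | i
    · exact (hC i _ x.1).trans (le_abs_self C)
    · show |(0 : ℝ)| ≤ |C|
      simp
    · show |(0 : ℝ)| ≤ |C|
      simp

lemma sepB (D : ι → (ι → ℝ) → Y → ℝ) (α : Y → ρ → ℝ) (s : Y → ℝ) (r : ℕ → ℝ) :
    Lv.Sep (DB S0.K D) (sg2 (gR S0.K α)) (sg2 (gT S0.K s r) : Y × Bool → II ι ρ S0.K → ℝ) where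
  disj := by
    intro e x x'
    rcases e with (i | i) | i
    · simp [sg2, gR, gT]
    · simp [sg2, gR, gT]
    · simp [sg2, gR, gT]
  indep := by
    intro e x he z y
    rcases e with (i | i) | i
    · simp [sg2, gR, gT] at he
    · rfl
    · rfl

/-- the row covariance at the level `l` -/
noncomputable def cr (lr : ρ → ℕ) (α : Y → ρ → ℝ) (l : ℕ) (y y' : Y) : ℝ :=
  ∑ i, if lr i ≤ l then α y i * α y' i else 0

lemma sum_T (r : ℕ → ℝ) {K l : ℕ} (hl : l ≤ K) (f : ℕ → ℝ) :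
    (∑ t : Fin (K + 1), if (t : ℕ) ≤ l then f t else 0) = ∑ i ∈ Finset.range (l + 1), f i := by
  rw [Fin.sum_univ_eq_sum_range (fun i => if i ≤ l then f i else 0) (K + 1), ← Finset.sum_filter]
  congr 1
  ext i
  simp only [Finset.mem_filter, Finset.mem_range]
  omega

lemma incr_nonneg' {K : ℕ} (hr : Path K r) {l : ℕ} (hl : l ≤ K) : 0 ≤ incr r l := by
  cases l with
  | zero => rw [incr_zero_def]; exact hr.1
  | succ l =>
    rw [incr_succ_def]
    have := hr.2 l (by omega)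
    linarith

lemma sum_incr' (q : ℕ → ℝ) (l : ℕ) : ∑ i ∈ Finset.range (l + 1), incr q i = q l := by
  induction l with
  | zero => simp [incr_zero_def]
  | succ l ih => rw [Finset.sum_range_succ, ih]; simp [incr_succ_def]

lemma gT_cov (hr : Path S0.K r) {l : ℕ} (hl : l ≤ S0.K) (y y' : Y) :
    (∑ t : Fin (S0.K + 1), if (t : ℕ) ≤ l then (s y * √(incr r t)) * (s y' * √(incr r t)) else 0) =
      s y * s y' * r l := by
  have e1 : ∀ t : Fin (S0.K + 1), (if (t : ℕ) ≤ l then (s y * √(incr r t)) * (s y' * √(incr r t))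
      else 0) = s y * s y' * (if (t : ℕ) ≤ l then incr r t else 0) := by
    intro t
    split_ifs
    · have h1 := Real.mul_self_sqrt (incr_nonneg' hr (Nat.lt_succ_iff.1 t.2))
      linear_combination (s y * s y') * h1
    · ring
  rw [Finset.sum_congr rfl fun t _ => e1 t, ← Finset.mul_sum, sum_T r hl (incr r), sum_incr']

lemma hh_eq (hr : Path S0.K r) {l : ℕ} (hl : l ≤ S0.K) (x x' : Y × Bool) :
    hh (Lv3 S0 lr) (sg2 (gR S0.K α)) (sg2 (gT S0.K s r)) l x x' =
      sgn x.2 * sgn x'.2 * (cr lr α l x.1 x'.1 - s x.1 * s x'.1 * r l) := by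
  unfold hh cv sg2
  rw [Fintype.sum_sum_type, Fintype.sum_sum_type, Fintype.sum_sum_type, Fintype.sum_sum_type]
  have a1 : ∀ i : ι, (if Lv3 S0 lr (Sum.inl (Sum.inl i) : II ι ρ S0.K) ≤ l then
      sgn x.2 * gR S0.K α x.1 (Sum.inl (Sum.inl i) : II ι ρ S0.K) *
        (sgn x'.2 * gR S0.K α x'.1 (Sum.inl (Sum.inl i) : II ι ρ S0.K)) else 0) = 0 := by
    intro i
    simp [gR]
  have a2 : ∀ i : ρ, (if Lv3 S0 lr (Sum.inl (Sum.inr i) : II ι ρ S0.K) ≤ l then
      sgn x.2 * gR S0.K α x.1 (Sum.inl (Sum.inr i) : II ι ρ S0.K) *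
        (sgn x'.2 * gR S0.K α x'.1 (Sum.inl (Sum.inr i) : II ι ρ S0.K)) else 0) =
      sgn x.2 * sgn x'.2 * (if lr i ≤ l then α x.1 i * α x'.1 i else 0) := by
    intro i
    show (if lr i ≤ l then sgn x.2 * α x.1 i * (sgn x'.2 * α x'.1 i) else 0) = _
    split_ifs <;> ring
  have a3 : ∀ t : Fin (S0.K + 1), (if Lv3 S0 lr (Sum.inr t : II ι ρ S0.K) ≤ l then
      sgn x.2 * gR S0.K α x.1 (Sum.inr t : II ι ρ S0.K) *
        (sgn x'.2 * gR S0.K α x'.1 (Sum.inr t : II ι ρ S0.K)) else 0) = 0 := by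
    intro t
    simp [gR]
  have b1 : ∀ i : ι, (if Lv3 S0 lr (Sum.inl (Sum.inl i) : II ι ρ S0.K) ≤ l then
      sgn x.2 * gT S0.K s r x.1 (Sum.inl (Sum.inl i) : II ι ρ S0.K) *
        (sgn x'.2 * gT S0.K s r x'.1 (Sum.inl (Sum.inl i) : II ι ρ S0.K)) else 0) = 0 := by
    intro i
    simp [gT]
  have b2 : ∀ i : ρ, (if Lv3 S0 lr (Sum.inl (Sum.inr i) : II ι ρ S0.K) ≤ l then
      sgn x.2 * gT S0.K s r x.1 (Sum.inl (Sum.inr i) : II ι ρ S0.K) *
        (sgn x'.2 * gT S0.K s r x'.1 (Sum.inl (Sum.inr i) : II ι ρ S0.K)) else 0) = 0 := by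
    intro i
    simp [gT]
  have b3 : ∀ t : Fin (S0.K + 1), (if Lv3 S0 lr (Sum.inr t : II ι ρ S0.K) ≤ l then
      sgn x.2 * gT S0.K s r x.1 (Sum.inr t : II ι ρ S0.K) *
        (sgn x'.2 * gT S0.K s r x'.1 (Sum.inr t : II ι ρ S0.K)) else 0) =
      sgn x.2 * sgn x'.2 * (if (t : ℕ) ≤ l then (s x.1 * √(incr r t)) *
        (s x'.1 * √(incr r t)) else 0) := by
    intro t
    show (if (t : ℕ) ≤ l then sgn x.2 * (s x.1 * √(incr r t)) *
      (sgn x'.2 * (s x'.1 * √(incr r t))) else 0) = _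
    split_ifs <;> ring
  simp only [a1, a2, a3, b1, b2, b3, Finset.sum_const_zero, zero_add, add_zero]
  rw [← Finset.mul_sum, ← Finset.mul_sum, gT_cov hr hl]
  unfold cr
  ring

lemma dg_eq (hr : Path S0.K r) (hs : ∀ y, s y ^ 2 = 1) (hα : ∀ y, ∑ i, α y i ^ 2 = v0)
    (x : Y × Bool) : dg (sg2 (gR S0.K α)) (sg2 (gT S0.K s r) : Y × Bool → II ι ρ S0.K → ℝ) x =
      v0 - r S0.K := by
  unfold dg sg2
  rw [Fintype.sum_sum_type, Fintype.sum_sum_type]
  have a1 : ∀ i : ι, (sgn x.2 * gR S0.K α x.1 (Sum.inl (Sum.inl i) : II ι ρ S0.K)) ^ 2 -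
      (sgn x.2 * gT S0.K s r x.1 (Sum.inl (Sum.inl i) : II ι ρ S0.K)) ^ 2 = 0 := by
    intro i
    simp [gR, gT]
  have a2 : ∀ i : ρ, (sgn x.2 * gR S0.K α x.1 (Sum.inl (Sum.inr i) : II ι ρ S0.K)) ^ 2 -
      (sgn x.2 * gT S0.K s r x.1 (Sum.inl (Sum.inr i) : II ι ρ S0.K)) ^ 2 = α x.1 i ^ 2 := by
    intro i
    show (sgn x.2 * α x.1 i) ^ 2 - (sgn x.2 * 0) ^ 2 = _
    rw [mul_pow, sgn_sq]
    ring
  have a3 : ∀ t : Fin (S0.K + 1), (sgn x.2 * gR S0.K α x.1 (Sum.inr t : II ι ρ S0.K)) ^ 2 -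
      (sgn x.2 * gT S0.K s r x.1 (Sum.inr t : II ι ρ S0.K)) ^ 2 = -incr r t := by
    intro t
    show (sgn x.2 * 0) ^ 2 - (sgn x.2 * (s x.1 * √(incr r t))) ^ 2 = _
    rw [mul_pow, mul_pow, sgn_sq, mul_pow, hs, Real.sq_sqrt (incr_nonneg' hr
      (Nat.lt_succ_iff.1 t.2))]
    ring
  simp only [a1, a2, a3, Finset.sum_const_zero, zero_add]
  rw [hα, Finset.sum_neg_distrib, Fin.sum_univ_eq_sum_range (fun i => incr r i) (S0.K + 1),
    sum_incr']
  ring

lemma abs_pair_le' {ι X : Type} [Fintype ι] [DecidableEq ι] [Fintype X] [DecidableEq X] [Nonempty X]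
    {S : Sy ι X} (hS : S.Reg) {l : ℕ} (hl : l ≤ S.K) (ψ : X → X → ℝ) :
    |S.pairEx l ψ| ≤ S.pairEx l (fun x x' => |ψ x x'|) := by
  rw [abs_le]
  constructor
  · have h := hS.pairEx_mono hl (ψ := fun x x' => -1 * |ψ x x'|) (ψ' := ψ)
      (fun x x' => by
        have := neg_abs_le (ψ x x')
        linarith)
    rw [hS.pairEx_const_mul] at h
    linarith
  · exact hS.pairEx_mono hl fun x x' => le_abs_self _

/-- the error -/
noncomputable def eK (S0 : Sy ι Y) (lr : ρ → ℕ) (α : Y → ρ → ℝ) (s : Y → ℝ) (r : ℕ → ℝ) : ℝ :=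
  ∑ l ∈ Finset.range (S0.K + 1), S0.p l *
    S0.pairEx l (fun y y' => |s y * s y' * cr lr α l y y' - r l|)

lemma field_sq (hr : Path S0.K r) (hs : ∀ y, s y ^ 2 = 1) (hα : ∀ y, ∑ i, α y i ^ 2 = v0)
    (hv : v0 ≤ b ^ 2) (hb : r S0.K ≤ b ^ 2) (θ : ℝ) (y : Y) :
    ∑ e : II ι ρ S0.K, (Real.sin θ * gR S0.K α y e + Real.cos θ * gT S0.K s r y e) ^ 2 ≤ b ^ 2 := by
  rw [Fintype.sum_sum_type, Fintype.sum_sum_type]
  have a1 : ∀ i : ι, (Real.sin θ * gR S0.K α y (Sum.inl (Sum.inl i) : II ι ρ S0.K) +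
      Real.cos θ * gT S0.K s r y (Sum.inl (Sum.inl i) : II ι ρ S0.K)) ^ 2 = 0 := by
    intro i
    simp [gR, gT]
  have a2 : ∀ i : ρ, (Real.sin θ * gR S0.K α y (Sum.inl (Sum.inr i) : II ι ρ S0.K) +
      Real.cos θ * gT S0.K s r y (Sum.inl (Sum.inr i) : II ι ρ S0.K)) ^ 2 =
      Real.sin θ ^ 2 * α y i ^ 2 := by
    intro i
    show (Real.sin θ * α y i + Real.cos θ * 0) ^ 2 = _
    ring
  have a3 : ∀ t : Fin (S0.K + 1), (Real.sin θ * gR S0.K α y (Sum.inr t : II ι ρ S0.K) +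
      Real.cos θ * gT S0.K s r y (Sum.inr t : II ι ρ S0.K)) ^ 2 = Real.cos θ ^ 2 * incr r t := by
    intro t
    show (Real.sin θ * 0 + Real.cos θ * (s y * √(incr r t))) ^ 2 = _
    rw [mul_zero, zero_add, mul_pow, mul_pow, hs, Real.sq_sqrt (incr_nonneg' hr
      (Nat.lt_succ_iff.1 t.2)), one_mul]
  simp only [a1, a2, a3, Finset.sum_const_zero, zero_add]
  rw [← Finset.mul_sum, ← Finset.mul_sum, hα,
    Fin.sum_univ_eq_sum_range (fun i => incr r i) (S0.K + 1), sum_incr']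
  have h1 := Real.sin_sq_add_cos_sq θ
  have h2 := mul_le_mul_of_nonneg_left hv (sq_nonneg (Real.sin θ))
  have h3 := mul_le_mul_of_nonneg_left hb (sq_nonneg (Real.cos θ))
  nlinarith

end main

end Vale.Agent.P146.H826
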