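import Vale.Agent.P146.H826.Kab0

set_option linter.all false

/-!
The two ends of the interpolation.
-/

open MeasureTheory ProbabilityTheory Filter Topology

namespace Vale.Agent.P146.H826

open Vale.Agent.P157 Vale.Agent.P157.Lv Vale.Agent.P157.Lv.Sy
open Vale.Agent.P157.Par (Path Exponents incr incr_zero_def incr_succ_def cascade gstep
  cascade_succ_def)
open Vale.Agent.P146.Gap (lc)
open Vale.Agent.P146.H784 Vale.Agent.P146.R3.H501.Tr
open Vale.Agent.P146.Ub (cv)

section main

variable {ι ρ Y : Type} [Fintype ι] [DecidableEq ι] [Fintype ρ] [DecidableEq ρ]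
  [Fintype Y] [DecidableEq Y] [Nonempty Y] {S0 : Sy ι Y} {lr : ρ → ℕ} {α : Y → ρ → ℝ}
  {s X : Y → ℝ} {r : ℕ → ℝ} {b v0 : ℝ}

/-- the bracket -/
theorem bk_le {D : ι → (ι → ℝ) → Y → ℝ} (hS : S0.RegD D) (hlr : ∀ i, lr i ≤ S0.K)
    (hr : Path S0.K r) (hb : r S0.K ≤ b ^ 2) (hs : ∀ y, s y ^ 2 = 1)
    (hα : ∀ y, ∑ i, α y i ^ 2 = v0) (hv : v0 ≤ b ^ 2) {h : ℝ} (hh1 : |h| ≤ 1) (θ : ℝ) :
    |bk (SB S0 lr s h) (sg2 (gR S0.K α)) (sg2 (gT S0.K s r) : Y × Bool → II ι ρ S0.K → ℝ) θ -
      (v0 - r S0.K)| ≤ Real.exp (2 * b ^ 2 + 2) * eK S0 lr α s r := by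
  have hSB := SB_regD (s := s) hS hlr h
  have hR := iS_reg hSB (sg2 (gR S0.K α)) (sg2 (gT S0.K s r)) θ
  have hbk : bk (SB S0 lr s h) (sg2 (gR S0.K α)) (sg2 (gT S0.K s r)) θ - (v0 - r S0.K) =
      -∑ l ∈ Finset.range (S0.K + 1), S0.p l *
        (iS (SB S0 lr s h) (sg2 (gR S0.K α)) (sg2 (gT S0.K s r)) θ).pairEx l
          (hh (Lv3 S0 lr) (sg2 (gR S0.K α)) (sg2 (gT S0.K s r)) l) := by
    unfold bk
    have e1 : (fun (_ : II ι ρ S0.K → ℝ) (x : Y × Bool) => dg (sg2 (gR S0.K α))
        (sg2 (gT S0.K s r) : Y × Bool → II ι ρ S0.K → ℝ) x) = fun _ _ => v0 - r S0.K := by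
      funext _ x
      exact dg_eq hr hs hα x
    rw [e1, hR.Ex_const]
    show v0 - r S0.K - (∑ l ∈ Finset.range (S0.K + 1), S0.p l *
        (iS (SB S0 lr s h) (sg2 (gR S0.K α)) (sg2 (gT S0.K s r)) θ).pairEx l
          (hh (Lv3 S0 lr) (sg2 (gR S0.K α)) (sg2 (gT S0.K s r)) l)) - (v0 - r S0.K) = _
    ring
  rw [hbk, abs_neg]
  unfold eK
  rw [Finset.mul_sum]
  refine (Finset.abs_sum_le_sum_abs _ _).trans (Finset.sum_le_sum fun l hl => ?_)
  have hlK : l ≤ S0.K := by
    have := Finset.mem_range.1 hl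
    omega
  have hlI : l ≤ (iS (SB S0 lr s h) (sg2 (gR S0.K α)) (sg2 (gT S0.K s r)) θ).K := hlK
  have hp : 0 ≤ S0.p l := p_nonneg hS.toReg hl
  rw [abs_mul, abs_of_nonneg hp]
  have h1 := abs_pair_le' hR hlI (hh (Lv3 S0 lr) (sg2 (gR S0.K α)) (sg2 (gT S0.K s r)) l)
  have e2 : (fun x x' => |hh (Lv3 S0 lr) (sg2 (gR S0.K α))
      (sg2 (gT S0.K s r) : Y × Bool → II ι ρ S0.K → ℝ) l x x'|) =
      fun x x' => |s x.1 * s x'.1 * cr lr α l x.1 x'.1 - r l| := by
    funext x x'
    rw [hh_eq hr hlK, abs_mul, abs_mul, abs_sgn, abs_sgn, one_mul, one_mul]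
    have hss : |s x.1 * s x'.1| = 1 := by
      rw [abs_mul]
      have h2 : ∀ y, |s y| = 1 := fun y => by
        have := hs y
        rw [← sq_abs] at this
        nlinarith [abs_nonneg (s y)]
      rw [h2, h2, one_mul]
    have hs2 : (s x.1 * s x'.1) * (s x.1 * s x'.1) = 1 := by
      have a := hs x.1
      have b := hs x'.1
      calc (s x.1 * s x'.1) * (s x.1 * s x'.1) = s x.1 ^ 2 * s x'.1 ^ 2 := by ring
        _ = 1 := by rw [a, b, one_mul]
    have e3 : cr lr α l x.1 x'.1 - s x.1 * s x'.1 * r l =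
        (s x.1 * s x'.1) * (s x.1 * s x'.1 * cr lr α l x.1 x'.1 - r l) := by
      linear_combination (-(cr lr α l x.1 x'.1)) * hs2
    rw [e3, abs_mul, hss, one_mul]
  rw [e2] at h1
  have h2 := Sf_pair_le (S := S0) (j := fun e => (Sum.inl (Sum.inl e) : II ι ρ S0.K))
    (lev' := Lv3 S0 lr)
    (γ := fun y e => Real.sin θ * gR S0.K α y e + Real.cos θ * gT S0.K s r y e)
    (c := fun y => h * s y) (l := l) hS.toReg (emb3 hS.toReg hlr)
    (fun y i => by
      show Real.sin θ * 0 + Real.cos θ * 0 = 0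
      ring)
    (v := b ^ 2) (C := 1) (fun y => field_sq hr hs hα hv hb θ y)
    (fun y => by
      have h2 : |s y| = 1 := by
        have := hs y
        rw [← sq_abs] at this
        nlinarith [abs_nonneg (s y)]
      rw [abs_mul, h2, mul_one]
      exact hh1)
    hlK (ψ := fun y y' => |s y * s y' * cr lr α l y y' - r l|) (fun _ _ => abs_nonneg _)
  have e4 : iS (SB S0 lr s h) (sg2 (gR S0.K α)) (sg2 (gT S0.K s r)) θ =
      Sf S0 (fun e => (Sum.inl (Sum.inl e) : II ι ρ S0.K)) (Lv3 S0 lr)
        (fun y e => Real.sin θ * gR S0.K α y e + Real.cos θ * gT S0.K s r y e)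
        (fun y => h * s y) := iS_eq θ h
  rw [e4] at h1 ⊢
  have h3 := mul_le_mul_of_nonneg_left (h1.trans h2) hp
  refine h3.trans (le_of_eq ?_)
  have e5 : 2 * b ^ 2 + 2 * 1 = 2 * b ^ 2 + 2 := by ring
  rw [e5]
  exact mul_left_comm _ _ _

/-- the row end -/
lemma end_row {D : ι → (ι → ℝ) → Y → ℝ} (hS : S0.RegD D) (hlr : ∀ i, lr i ≤ S0.K) (h : ℝ) :
    (SI S0 lr α s r (Real.pi / 2) h).fe = (SR S0 lr α s h).fe := by
  have hR := SR_reg hS.toReg hlr α s h
  have key := fe_emb (S := SR S0 lr α s h) (S' := SI S0 lr α s r (Real.pi / 2) h)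
    (j := (Sum.inl : ι ⊕ ρ → II ι ρ S0.K)) (c := 0) hR
    { inj := Sum.inl_injective
      lv := by
        rintro (e | e)
        · rfl
        · rfl
      le := (emb3 hS.toReg hlr).le } rfl rfl (fun z => by
      unfold top
      rw [add_zero]
      congr 1
      refine Finset.sum_congr rfl fun x _ => ?_
      congr 1
      show S0.H (fun e => z (Sum.inl (Sum.inl e))) x.1 + sgn x.2 * (lin (fun e =>
        Real.sin (Real.pi / 2) * gR S0.K α x.1 e + Real.cos (Real.pi / 2) * gT S0.K s r x.1 e) z +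
          h * s x.1) =
        S0.H (fun e => z (Sum.inl (Sum.inl e))) x.1 +
          sgn x.2 * (∑ i, α x.1 i * z (Sum.inl (Sum.inr i)) + h * s x.1)
      have e1 : lin (fun e => Real.sin (Real.pi / 2) * gR S0.K α x.1 e +
          Real.cos (Real.pi / 2) * gT S0.K s r x.1 e) z =
          ∑ i, α x.1 i * z (Sum.inl (Sum.inr i)) := by
        unfold lin
        rw [Fintype.sum_sum_type, Fintype.sum_sum_type, Real.sin_pi_div_two,
          Real.cos_pi_div_two]
        simp [gR]
      rw [e1])
  rw [key, add_zero]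

/-- the coordinates of the tree -/
def yT (K : ℕ) (l : ℕ) : II ι ρ K := Sum.inr ⟨min l K, by omega⟩

/-- the base system on all the coordinates -/
noncomputable def S2d (S0 : Sy ι Y) (lr : ρ → ℕ) : Sy (II ι ρ S0.K) Y where
  lev := Lv3 S0 lr
  K := S0.K
  m := S0.m
  H := fun z y => S0.H (fun e => z (Sum.inl (Sum.inl e))) y

/-- the tree end -/
lemma end_tree {D : ι → (ι → ℝ) → Y → ℝ} (hS : S0.RegD D) (hlr : ∀ i, lr i ≤ S0.K)
    (hr : Path S0.K r) (h0 : r 0 = 0) (hs : ∀ y, s y ^ 2 = 1) (h : ℝ) :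
    (SI S0 lr α s r 0 h).fe = S0.fe + Real.log 2 + cascade S0.m r S0.K lc h := by
  -- the system without the spin on all the coordinates
  obtain ⟨S2, hS2⟩ : ∃ S2 : Sy (II ι ρ S0.K) Y, S2 = S2d S0 lr := ⟨_, rfl⟩
  have hj := emb3 hS.toReg hlr (ρ := ρ)
  have hS2r : S2.RegD (fun e z y => match e with
    | Sum.inl (Sum.inl i) => D i (fun e => z (Sum.inl (Sum.inl e))) y
    | _ => 0) := by
    have hq := SB_regD (s := s) hS hlr h
    rw [hS2]
    refine {
      m0 := hS.m0
      mK := hS.mK
      mono := hS.mono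
      pos := hS.pos
      lev := hj.le
      lip := fun y => lip_j (hS.lip y) _
      pd := fun e y => ?_
      md := fun e y => ?_
      bd := ?_ }
    · intro z t
      have h1 := hq.pd e (y, true) z t
      have hH : ∀ z, (SB S0 lr s h).H z (y, true) = S0.H (fun e => z (Sum.inl (Sum.inl e))) y +
          sgn true * (0 + h * s y) := by
        intro z
        show S0.H (fun e => z (Sum.inl (Sum.inl e))) y + sgn true * (lin (fun _ => 0) z +
          h * s y) = _
        have : lin (fun _ => 0) z = 0 := by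
          unfold lin
          simp
        rw [this]
      simp only [hH] at h1
      have h2 := h1.sub_const (sgn true * (0 + h * s y))
      simp only [add_sub_cancel_right] at h2
      refine h2.congr_deriv ?_
      rcases e with (i | i) | i <;> rfl
    · have h1 := hq.md e (y, true)
      rcases e with (i | i) | i
      · exact h1
      · exact measurable_const
      · exact measurable_const
    · obtain ⟨C, hC⟩ := hq.bd
      refine ⟨C, fun e z y => ?_⟩
      have h1 := hC e z (y, true)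
      rcases e with (i | i) | i
      · exact h1
      · exact h1
      · exact h1
  have hlc : ∀ x x', |(fun t => lc (t + h)) x - (fun t => lc (t + h)) x'| ≤ 1 * |x - x'| := by
    intro x x'
    have h1 := Vale.Agent.P146.Gap.comp_lc.dist_le_mul (x + h) (x' + h)
    rw [Real.dist_eq, Real.dist_eq] at h1
    have e : x + h - (x' + h) = x - x' := by ring
    rw [e, NNReal.coe_one] at h1
    exact h1
  have hy : ∀ l ≤ S2.K, S2.lev (yT S0.K l) = l := by
    intro l hl
    rw [hS2] at hl ⊢
    show min l S0.K = l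
    exact min_eq_left hl
  have key := fe_add_tree (S := S2) hS2r (y := yT S0.K) hy (fun l hl z y => rfl) (R := r)
    (by rw [hS2]; exact hr) (F := fun t => lc (t + h)) (L := 1) hlc
  have hm2 : S2.m = S0.m := by rw [hS2]; rfl
  have hK2 : S2.K = S0.K := by rw [hS2]; rfl
  have hl2 : S2.lev = Lv3 S0 lr := by rw [hS2]; rfl
  rw [h0, Real.sqrt_zero] at key
  simp only [zero_mul] at key
  rw [integral_const] at key
  rw [probReal_univ, one_smul] at key
  rw [cascade_shift, zero_add, hm2, hK2] at key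
  have k2 : S2.fe = S0.fe := by
    have := fe_emb (S := S0) (S' := S2) (j := fun e => (Sum.inl (Sum.inl e) : II ι ρ S0.K))
      (c := 0) hS.toReg (by rw [hl2]; exact hj) hK2 hm2 (fun z => by
        rw [add_zero, hS2]
        rfl)
    rw [this, add_zero]
  have hRw : (S2.wH fun z x => S2.H z x + (fun t => lc (t + h)) (tf (yT S0.K) S0.K r z)).Reg := by
    refine {
      m0 := hS2r.m0
      mK := hS2r.mK
      mono := hS2r.mono
      pos := hS2r.pos
      lev := hS2r.lev
      lip := fun y => (hS2r.lip y).add ?_ }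
    have h1 : Lip fun z : II ι ρ S0.K → ℝ => tf (yT S0.K) S0.K r z :=
      Lip.sum _ fun l _ => (Lip.coord _).const_mul _
    obtain ⟨L, hL, h2⟩ := h1
    refine ⟨L, hL, fun z w => ?_⟩
    have h3 := hlc (tf (yT S0.K) S0.K r z) (tf (yT S0.K) S0.K r w)
    rw [one_mul] at h3
    exact h3.trans (h2 z w)
  have k3 := fe_emb (S := S2.wH fun z x => S2.H z x + (fun t => lc (t + h))
      (tf (yT S0.K) S0.K r z)) (S' := SI S0 lr α s r 0 h) (j := id) (c := Real.log 2) hRw
    { inj := Function.injective_id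
      lv := fun e => by
        show Lv3 S0 lr e = S2.lev e
        rw [hl2]
      le := fun e => by
        show Lv3 S0 lr e ≤ S2.K
        rw [hK2]
        exact hj.le e } (by show S0.K = S2.K; rw [hK2]) (by show S0.m = S2.m; rw [hm2]) (fun z => by
      have hlin : ∀ y, lin (fun e => Real.sin 0 * gR S0.K α y e + Real.cos 0 * gT S0.K s r y e) z =
          s y * tf (yT S0.K) S0.K r z := by
        intro y
        unfold lin tf
        rw [Fintype.sum_sum_type, Fintype.sum_sum_type, Real.sin_zero, Real.cos_zero]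
        have a1 : ∀ i : ι, (0 * gR S0.K α y (Sum.inl (Sum.inl i) : II ι ρ S0.K) +
            1 * gT S0.K s r y (Sum.inl (Sum.inl i) : II ι ρ S0.K)) *
              z (Sum.inl (Sum.inl i)) = 0 := by
          intro i
          simp [gT]
        have a2 : ∀ i : ρ, (0 * gR S0.K α y (Sum.inl (Sum.inr i) : II ι ρ S0.K) +
            1 * gT S0.K s r y (Sum.inl (Sum.inr i) : II ι ρ S0.K)) *
              z (Sum.inl (Sum.inr i)) = 0 := by
          intro i
          simp [gT]
        have a3 : ∀ t : Fin (S0.K + 1), (0 * gR S0.K α y (Sum.inr t : II ι ρ S0.K) +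
            1 * gT S0.K s r y (Sum.inr t : II ι ρ S0.K)) * z (Sum.inr t) =
            s y * (√(incr r t) * z (yT S0.K t)) := by
          intro t
          have e : (yT S0.K t : II ι ρ S0.K) = Sum.inr t := by
            unfold yT
            congr 1
            ext
            exact min_eq_left (Nat.lt_succ_iff.1 t.2)
          rw [e]
          show (0 * 0 + 1 * (s y * √(incr r t))) * z (Sum.inr t) = _
          ring
        simp only [a1, a2, a3, Finset.sum_const_zero, zero_add]
        rw [← Finset.mul_sum, Fin.sum_univ_eq_sum_range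
          (fun i => √(incr r i) * z (yT S0.K i)) (S0.K + 1)]
      have e1 : (SI S0 lr α s r 0 h).top z = Real.log (∑ y,
          Real.exp (S0.H (fun e => z (Sum.inl (Sum.inl e))) y) * (2 * Real.cosh
            (tf (yT S0.K) S0.K r z + h))) := by
        unfold SI
        rw [Sf_top]
        congr 1
        refine Finset.sum_congr rfl fun y _ => ?_
        rw [hlin]
        congr 2
        have h2 : |s y| = 1 := by
          have := hs y
          rw [← sq_abs] at this
          nlinarith [abs_nonneg (s y)]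
        have e5 : s y * tf (yT S0.K) S0.K r z + h * s y = s y * (tf (yT S0.K) S0.K r z + h) := by
          ring
        rw [e5]
        have hc : Real.cosh (s y * (tf (yT S0.K) S0.K r z + h)) =
            Real.cosh (tf (yT S0.K) S0.K r z + h) := by
          rw [← Real.cosh_abs, abs_mul, h2, one_mul, Real.cosh_abs]
        rw [hc]
      rw [e1]
      show _ = Real.log (∑ y, Real.exp (S2.H z y + lc (tf (yT S0.K) S0.K r z + h))) + Real.log 2
      simp only [Real.exp_add]
      rw [← Finset.sum_mul, ← Finset.sum_mul]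
      have hp : 0 < ∑ y, Real.exp (S0.H (fun e => z (Sum.inl (Sum.inl e))) y) :=
        S0.sum_exp_pos _
      have e6 : ∑ y, Real.exp (S2.H z y) =
          ∑ y, Real.exp (S0.H (fun e => z (Sum.inl (Sum.inl e))) y) := by rw [hS2]; rfl
      rw [e6]
      have hc := Real.cosh_pos (tf (yT S0.K) S0.K r z + h)
      have e7 : Real.exp (lc (tf (yT S0.K) S0.K r z + h)) =
          Real.cosh (tf (yT S0.K) S0.K r z + h) := Real.exp_log hc
      rw [e7, Real.log_mul hp.ne' (by positivity), Real.log_mul hp.ne' hc.ne',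
        Real.log_mul (by norm_num) hc.ne']
      ring)
  rw [k3, key, k2]
  ring

end main

end Vale.Agent.P146.H826
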