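import Vale.Agent.P146.H826.Kab

set_option linter.all false

/-!
The two bounds of the fourth derivative in one statement.
-/

open MeasureTheory ProbabilityTheory Filter Topology

namespace Vale.Agent.P146.H826

open Vale.Agent.P157 Vale.Agent.P157.Lv Vale.Agent.P157.Lv.Sy
open Vale.Agent.P157.Par (Path Exponents)
open Vale.Agent.P146.Gap (lc BPath)

/-- **The fourth derivative**: the two bounds. -/
theorem kab2 (b : ℝ) : ∃ c0 ε0 C : ℝ, 0 < c0 ∧ 0 < ε0 ∧ 0 < C ∧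
    ∀ {ι ρ Y : Type} [Fintype ι] [DecidableEq ι] [Fintype ρ] [DecidableEq ρ]
      [Fintype Y] [DecidableEq Y] [Nonempty Y] (S0 : Sy ι Y) (D : ι → (ι → ℝ) → Y → ℝ)
      (hS : S0.RegD D) (hm : Exponents S0.K S0.m) (lr : ρ → ℕ) (hlr : ∀ i, lr i ≤ S0.K)
      (α : Y → ρ → ℝ) (v0 : ℝ) (hα : ∀ y, ∑ i, α y i ^ 2 = v0) (hv : v0 ≤ b ^ 2) (X : Y → ℝ),
      |iteratedDeriv 4 (fun h => (SR S0 lr α X h).fe) 0| ≤
          C * S0.Ex (fun _ y => X y ^ 4) * Real.exp (v0 / 2) ∧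
      ∀ (s : Y → ℝ) (hs : ∀ y, s y ^ 2 = 1) (r : ℕ → ℝ) (hr : BPath b S0.K r)
        (hE : ∑ l ∈ Finset.range (S0.K + 1), S0.p l * S0.pairEx l (fun y y' =>
          |s y * s y' * (∑ i, if lr i ≤ l then α y i * α y' i else 0) - r l|) ≤ ε0)
        (hX : S0.Ex (fun _ y => (X y - s y) ^ 4) ≤ ε0),
        iteratedDeriv 4 (fun h => (SR S0 lr α X h).fe) 0 ≤ -c0 := by
  obtain ⟨c0, ε0, hc, hε, hk⟩ := kab b
  refine ⟨c0, ε0, 34 ^ 3 * 2, hc, hε, by norm_num, ?_⟩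
  intro ι ρ Y _ _ _ _ _ _ _ S0 D hS hm lr hlr α v0 hα hv X
  refine ⟨?_, fun s hs r hr hE hX => hk hS hm hlr hr hs hα hv hE hX⟩
  refine (kab_abs hS.toReg hlr hα X).trans (le_of_eq ?_)
  ring

end Vale.Agent.P146.H826
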