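import Vale.Agent.P146.H784.Trf2
import Vale.Agent.P146.H826.KDef

set_option linter.all false

/-!
A system on a larger set of coordinates and with one more spin; the comparison of the averages with
and without the interaction of the additional spin.
-/

open MeasureTheory ProbabilityTheory Filter Topology

namespace Vale.Agent.P146.H826

open Vale.Agent.P157 Vale.Agent.P157.Lv Vale.Agent.P157.Lv.Sy
open Vale.Agent.P146.H784 Vale.Agent.P146.R3.H501.Tr

/-- marginals of `gI` -/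
lemma mp_jn {α β : Type} [Fintype α] [Fintype β] {φ : α → β} (hφ : Function.Injective φ) :
    MeasurePreserving (fun w : β → ℝ => fun a => w (φ a)) (gI β) (gI α) := by
  classical
  refine ⟨by fun_prop, ?_⟩
  refine (Measure.pi_eq fun S hS => ?_).symm
  rw [Measure.map_apply (by fun_prop) (MeasurableSet.univ_pi hS)]
  have h1 : (fun w : β → ℝ => fun a => w (φ a)) ⁻¹' (Set.univ.pi S) =
      Set.univ.pi (fun b => if h : ∃ a, φ a = b then S h.choose else Set.univ) := by
    ext w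
    simp only [Set.mem_preimage, Set.mem_pi, Set.mem_univ, true_implies]
    constructor
    · intro h b
      split_ifs with hb
      · have := h hb.choose
        rwa [hb.choose_spec] at this
      · trivial
    · intro h a
      have h2 := h (φ a)
      have hb : ∃ a', φ a' = φ a := ⟨a, rfl⟩
      rw [dif_pos hb] at h2
      rwa [hφ hb.choose_spec] at h2
  rw [h1, Measure.pi_pi]
  symm
  refine Fintype.prod_of_injective φ hφ _ _ (fun b hb => ?_) fun a => ?_
  · have hb' : ¬ ∃ a, φ a = b := hb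
    rw [dif_neg hb']
    exact measure_univ
  · have hb : ∃ a', φ a' = φ a := ⟨a, rfl⟩
    rw [dif_pos hb, hφ hb.choose_spec]

lemma int_jn {α β : Type} [Fintype α] [Fintype β] {φ : α → β} (hφ : Function.Injective φ)
    {f : (α → ℝ) → ℝ} (hf : Measurable f) :
    ∫ w : β → ℝ, f (fun a => w (φ a)) ∂(gI β) = ∫ u, f u ∂(gI α) := by
  have h := mp_jn hφ
  rw [← h.map_eq, integral_map h.measurable.aemeasurable]
  rw [h.map_eq]
  exact hf.aestronglyMeasurable

section emb

variable {ι ι' Y : Type} [Fintype ι] [DecidableEq ι] [Fintype ι'] [DecidableEq ι']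
  [Fintype Y] [DecidableEq Y] [Nonempty Y] {S : Sy ι Y} {j : ι → ι'} {lev' : ι' → ℕ} {l : ℕ}

/-- **`S` on a larger set of coordinates and with one more spin, which is free** -/
noncomputable def Sb (S : Sy ι Y) (j : ι → ι') (lev' : ι' → ℕ) : Sy ι' (Y × Bool) where
  lev := lev'
  K := S.K
  m := S.m
  H := fun z x => S.H (fun e => z (j e)) x.1

/-- `j` embeds the coordinates of `S` -/
structure Emb (S : Sy ι Y) (j : ι → ι') (lev' : ι' → ℕ) : Prop where
  inj : Function.Injective j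
  lv : ∀ e, lev' (j e) = S.lev e
  le : ∀ e, lev' e ≤ S.K

lemma norm_j (j : ι → ι') (z : ι' → ℝ) : ‖fun e => z (j e)‖ ≤ ‖z‖ := by
  rw [pi_norm_le_iff_of_nonneg (norm_nonneg _)]
  intro e
  exact norm_le_pi_norm z (j e)

lemma lip_j {F : (ι → ℝ) → ℝ} (hF : Lip F) (j : ι → ι') : Lip fun z => F fun e => z (j e) := by
  obtain ⟨L, hL, h⟩ := hF
  refine ⟨L, hL, fun y y' => (h _ _).trans (mul_le_mul_of_nonneg_left ?_ hL)⟩
  exact norm_j j (y - y')

lemma eg_j {F : (ι → ℝ) → ℝ} (hF : EG F) (j : ι → ι') : EG fun z => F fun e => z (j e) := by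
  obtain ⟨C, a, hC, ha, h⟩ := hF.bdd
  refine ⟨hF.meas.comp (by fun_prop), C, a, hC, ha, fun z => (h _).trans ?_⟩
  exact mul_le_mul_of_nonneg_left (Real.exp_le_exp.2 (mul_le_mul_of_nonneg_left (norm_j j z) ha)) hC

lemma mix_j (hj : Emb S j lev') (l : ℕ) (z w : ι' → ℝ) :
    (fun e => mix lev' l z w (j e)) = mix S.lev l (fun e => z (j e)) (fun e => w (j e)) := by
  funext e
  unfold mix
  rw [hj.lv]

lemma J_j (hj : Emb S j lev') (l : ℕ) {F : (ι → ℝ) → ℝ} (hF : Measurable F) (z : ι' → ℝ) :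
    Lv.J lev' l (fun z => F fun e => z (j e)) z = Lv.J S.lev l F (fun e => z (j e)) := by
  unfold Lv.J
  rw [← int_jn hj.inj (f := fun u => F (mix S.lev l (fun e => z (j e)) u))
    (hF.comp (measurable_mix_right S.lev l _))]
  refine integral_congr_ae (Filter.Eventually.of_forall fun w => ?_)
  show F (fun e => mix lev' l z w (j e)) = _
  rw [mix_j hj]

lemma Sb_reg (hS : S.Reg) (hj : Emb S j lev') : (Sb S j lev').Reg where
  m0 := hS.m0
  mK := hS.mK
  mono := hS.mono
  pos := hS.pos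
  lev := hj.le
  lip := fun x => lip_j (hS.lip x.1) j

lemma Sb_top (z : ι' → ℝ) :
    (Sb S j lev').top z = S.top (fun e => z (j e)) + Real.log 2 := by
  unfold top
  rw [Fintype.sum_prod_type]
  have e : ∀ y : Y, ∑ b : Bool, Real.exp ((Sb S j lev').H z (y, b)) =
      2 * Real.exp (S.H (fun e => z (j e)) y) := by
    intro y
    rw [Fintype.sum_bool]
    show Real.exp (S.H (fun e => z (j e)) y) + Real.exp (S.H (fun e => z (j e)) y) = _
    ring
  simp only [e]
  rw [← Finset.mul_sum, Real.log_mul (by norm_num) (S.sum_exp_pos _).ne', add_comm]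

lemma Sb_lg (hS : S.Reg) (hj : Emb S j lev') (hl : l ≤ S.K) (z : ι' → ℝ) :
    (Sb S j lev').lg l z = S.lg l (fun e => z (j e)) + Real.log 2 := by
  have key : ∀ l ≤ S.K, ∀ z, (Sb S j lev').lg l z = S.lg l (fun e => z (j e)) + Real.log 2 := by
    refine down_ind (P := fun l => ∀ z, (Sb S j lev').lg l z =
      S.lg l (fun e => z (j e)) + Real.log 2) ?_ ?_
    · intro z
      have e1 : (Sb S j lev').lg S.K = (Sb S j lev').top := lg_top (Sb S j lev')
      rw [e1, lg_top S]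
      exact Sb_top z
    · intro l hl ih z
      have hm : 0 < S.m (l + 1) := hS.m_pos (by omega) (by omega)
      have e1 : (Sb S j lev').lg l = (Sb S j lev').stp l ((Sb S j lev').lg (l + 1)) :=
        lg_step (Sb S j lev') (show l < (Sb S j lev').K from hl)
      rw [e1, lg_step S hl]
      unfold stp
      show 1 / S.m (l + 1) * Real.log (Lv.J lev' l (fun z => Real.exp (S.m (l + 1) *
        (Sb S j lev').lg (l + 1) z)) z) = _
      have e2 : (fun z => Real.exp (S.m (l + 1) * (Sb S j lev').lg (l + 1) z)) = fun z =>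
          Real.exp (S.m (l + 1) * Real.log 2) *
            (fun u => Real.exp (S.m (l + 1) * S.lg (l + 1) u)) (fun e => z (j e)) := by
        funext z
        rw [ih z, ← Real.exp_add]
        congr 1
        ring
      have hEG : EG fun u => Real.exp (S.m (l + 1) * S.lg (l + 1) u) :=
        (hS.lip_lg (l := l + 1) hl).exp_eg _
      rw [e2, J_const_mul, J_j hj l hEG.meas, Real.log_mul (Real.exp_pos _).ne'
        (J_pos hEG (fun _ => Real.exp_pos _) _).ne', Real.log_exp]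
      field_simp
      ring
  exact key l hl z

lemma Sb_dn (hS : S.Reg) (hj : Emb S j lev') (l : ℕ) (z : ι' → ℝ) :
    (Sb S j lev').dn l z = S.dn l (fun e => z (j e)) := by
  unfold dn
  congr 1
  refine Finset.sum_congr rfl fun i hi => ?_
  obtain ⟨_, hi2⟩ := Finset.mem_Ico.1 hi
  have hi3 : i < S.K := hi2
  rw [Sb_lg hS hj (show i + 1 ≤ S.K by omega), Sb_lg hS hj (show i ≤ S.K by omega)]
  show S.m (i + 1) * _ = _
  ring

lemma Sb_gb (z : ι' → ℝ) (x : Y × Bool) :
    (Sb S j lev').gb z x = S.gb (fun e => z (j e)) x.1 / 2 := by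
  rw [gb_eq, gb_eq, Sb_top]
  show Real.exp (S.H (fun e => z (j e)) x.1 - (S.top (fun e => z (j e)) + Real.log 2)) = _
  rw [← sub_sub, Real.exp_sub _ (Real.log 2), Real.exp_log (by norm_num)]

lemma Sb_av (F : (ι → ℝ) → Y → ℝ) (z : ι' → ℝ) :
    (Sb S j lev').av (fun z x => F (fun e => z (j e)) x.1) z = S.av F (fun e => z (j e)) := by
  unfold Sy.av
  rw [Fintype.sum_prod_type]
  refine Finset.sum_congr rfl fun y _ => ?_
  rw [Fintype.sum_bool, Sb_gb, Sb_gb]
  ring

lemma Sb_T (hS : S.Reg) (hj : Emb S j lev') (hl : l ≤ S.K) {F : (ι → ℝ) → Y → ℝ} (hF : Nh F)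
    (z : ι' → ℝ) : (Sb S j lev').T l (fun z x => F (fun e => z (j e)) x.1) z =
      S.T l F (fun e => z (j e)) := by
  unfold T
  have e1 : (fun z => (Sb S j lev').dn l z * (Sb S j lev').av
      (fun z x => F (fun e => z (j e)) x.1) z) =
      fun z => (fun u => S.dn l u * S.av F u) (fun e => z (j e)) := by
    funext z
    rw [Sb_dn hS hj, Sb_av]
  rw [e1]
  exact J_j hj l ((hS.eg_dn hl).mul (hS.eg_av hF)).meas z

lemma Sb_Ex (hS : S.Reg) (hj : Emb S j lev') {F : (ι → ℝ) → Y → ℝ} (hF : Nh F) :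
    (Sb S j lev').Ex (fun z x => F (fun e => z (j e)) x.1) = S.Ex F := by
  unfold Ex
  rw [← int_jn hj.inj (f := fun u => S.dn 0 u * S.av F u)
    ((hS.eg_dn (Nat.zero_le _)).mul (hS.eg_av hF)).meas]
  refine integral_congr_ae (Filter.Eventually.of_forall fun z => ?_)
  show (Sb S j lev').dn 0 z * _ = _
  rw [Sb_dn hS hj, Sb_av]

lemma Sb_fe (hS : S.Reg) (hj : Emb S j lev') : (Sb S j lev').fe = S.fe + Real.log 2 := by
  unfold fe
  have e1 : ∀ z, (Sb S j lev').lg 0 z = S.lg 0 (fun e => z (j e)) + Real.log 2 :=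
    fun z => Sb_lg hS hj (Nat.zero_le _) z
  simp only [e1]
  rw [integral_add (lip_j (hS.lip_lg (Nat.zero_le _)) j).eg.integrable (integrable_const _),
    int_jn hj.inj (hS.lip_lg (Nat.zero_le _)).measurable]
  simp

/-- the pair averages -/
theorem Sb_pairEx (hS : S.Reg) (hj : Emb S j lev') (hl : l ≤ S.K) (ψ : Y → Y → ℝ) :
    (Sb S j lev').pairEx l (fun x x' => ψ x.1 x'.1) = S.pairEx l ψ := by
  have hR := Sb_reg hS hj
  have hl' : l ≤ (Sb S j lev').K := hl
  have h1 : ∀ (g : Y → ℝ) (z : ι' → ℝ), ∑ x : Y × Bool, (Sb S j lev').pr l z x * g x.1 =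
      ∑ y, S.pr l (fun e => z (j e)) y * g y := by
    intro g z
    rw [← hR.T_pr hl' (fun x => g x.1) z, ← hS.T_pr hl g]
    exact Sb_T hS hj hl (F := fun _ y => g y) (Nh.snd g) z
  have h2 : ∀ z, ∑ x : Y × Bool, ∑ x' : Y × Bool, (Sb S j lev').pr l z x *
      (Sb S j lev').pr l z x' * ψ x.1 x'.1 =
      (fun u => ∑ y, ∑ y', S.pr l u y * S.pr l u y' * ψ y y') (fun e => z (j e)) := by
    intro z
    have e1 : ∀ x : Y × Bool, ∑ x' : Y × Bool, (Sb S j lev').pr l z x *
        (Sb S j lev').pr l z x' * ψ x.1 x'.1 = (Sb S j lev').pr l z x *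
        ∑ y', S.pr l (fun e => z (j e)) y' * ψ x.1 y' := by
      intro x
      rw [← h1 (fun y' => ψ x.1 y') z, Finset.mul_sum]
      exact Finset.sum_congr rfl fun x' _ => by ring
    rw [Finset.sum_congr rfl fun x _ => e1 x,
      h1 (fun y => ∑ y', S.pr l (fun e => z (j e)) y' * ψ y y') z]
    refine Finset.sum_congr rfl fun y _ => ?_
    rw [Finset.mul_sum]
    exact Finset.sum_congr rfl fun y' _ => by ring
  unfold pairEx
  rw [← Sb_Ex hS hj (F := fun u _ => ∑ y, ∑ y', S.pr l u y * S.pr l u y' * ψ y y')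
    (Nh.fst (hS.nh_pair hl ψ))]
  congr 1
  funext z x
  exact h2 z

end emb

/-! ### The upper comparison with a bounded additional term -/

section cmp

variable {ι X : Type} [Fintype ι] [Fintype X] [Nonempty X] {S : Sy ι X}
  {H' : (ι → ℝ) → X → ℝ}

/-- **The upper comparison.** -/
theorem Ex_le_of_top' (hS : S.Reg) (hS' : (S.wH H').Reg)
    (h : ∀ z, S.top z ≤ (S.wH H').top z) {φ : (ι → ℝ) → X → ℝ} (hφ : Nh φ)
    (h0 : ∀ z x, 0 ≤ φ z x) {B : ι → Prop} {b : X → ι → ℝ} {v c : ℝ}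
    (hb : ∀ z x, H' z x - S.H z x ≤ ∑ e, b x e * z e + c) (hbB : ∀ x e, ¬ B e → b x e = 0)
    (hv : ∀ x, ∑ e, b x e ^ 2 ≤ v) (hHB : ∀ x, Ind B fun z => S.H z x)
    (hφB : ∀ x, Ind B fun z => φ z x) :
    (S.wH H').Ex φ ≤ Real.exp (v / 2 + c) * S.Ex φ := by
  rw [Ex_eq_sum hS' hφ, Ex_eq_sum hS hφ, Finset.mul_sum]
  refine Finset.sum_le_sum fun x _ => ?_
  have hG : ∀ z : ι → ℝ, (fun z => S.dn 0 z * S.gb z x * φ z x) (fun e => z e + b x e) =
      S.dn 0 z * S.gb z x * φ z x := by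
    intro z
    have hz : ∀ e, ¬ B e → (fun e => z e + b x e) e = z e := fun e he => by
      show z e + b x e = z e
      rw [hbB x e he, add_zero]
    have e1 := ind_dn hHB _ _ hz
    have e2 : S.gb (fun e => z e + b x e) x = S.gb z x := ind_gb hHB x _ _ hz
    have e3 : φ (fun e => z e + b x e) x = φ z x := hφB x _ _ hz
    show S.dn 0 (fun e => z e + b x e) * S.gb (fun e => z e + b x e) x *
      φ (fun e => z e + b x e) x = _
    rw [e1, e2, e3]
  have h1 := int_exp_lin (b x) (G := fun z => S.dn 0 z * S.gb z x * φ z x) hG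
  have hnn : 0 ≤ ∫ z, S.dn 0 z * S.gb z x * φ z x ∂(gI ι) :=
    integral_nonneg fun z => mul_nonneg (mul_nonneg (S.dn_pos 0 z).le (S.gb_pos z x).le) (h0 z x)
  have h2 : Real.exp c * (Real.exp ((∑ e, b x e ^ 2) / 2) *
      ∫ z, S.dn 0 z * S.gb z x * φ z x ∂(gI ι)) ≤
      Real.exp (v / 2 + c) * ∫ z, S.dn 0 z * S.gb z x * φ z x ∂(gI ι) := by
    rw [← mul_assoc, ← Real.exp_add]
    refine mul_le_mul_of_nonneg_right (Real.exp_le_exp.2 ?_) hnn
    have := hv x
    linarith
  refine le_trans ?_ h2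
  rw [← h1, ← integral_const_mul]
  have hlip : EG fun z : ι → ℝ => Real.exp (∑ e, b x e * z e) := by
    have : Lip fun z : ι → ℝ => ∑ e, b x e * z e :=
      Lip.sum _ fun e _ => (Lip.coord e).const_mul _
    exact lc_eg_exp this
  refine integral_mono (nh_Ex_int hS' hφ x).integrable
    ((hlip.mul (nh_Ex_int hS hφ x)).const_mul _).integrable fun z => ?_
  show (S.wH H').dn 0 z * (S.wH H').gb z x * φ z x ≤
    Real.exp c * (Real.exp (∑ e, b x e * z e) * (S.dn 0 z * S.gb z x * φ z x))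
  rw [dn_gb_eq]
  have h3 : UU S H' z x ≤ ∑ e, b x e * z e + c := by
    unfold UU
    have := abel_ge hS (f := fun i => S.pD H' i z) (c := 0) fun i hi => lg_mono hS hS' h hi z
    rw [neg_zero] at this
    have := hb z x
    linarith
  have h4 : 0 ≤ S.dn 0 z * S.gb z x * φ z x :=
    mul_nonneg (mul_nonneg (S.dn_pos 0 z).le (S.gb_pos z x).le) (h0 z x)
  have h5 := mul_le_mul_of_nonneg_right (Real.exp_le_exp.2 h3) h4
  rw [Real.exp_add] at h5
  refine le_trans (le_of_eq ?_) (h5.trans (le_of_eq ?_))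
  · ring
  · ring

end cmp

/-! ### The interaction of the additional spin -/

section field

variable {ι ι' Y : Type} [Fintype ι] [DecidableEq ι] [Fintype ι'] [DecidableEq ι']
  [Fintype Y] [DecidableEq Y] [Nonempty Y] {S : Sy ι Y} {j : ι → ι'} {lev' : ι' → ℕ} {l : ℕ}
  {γ : Y → ι' → ℝ} {c : Y → ℝ}

/-- **the additional spin in the field `γ · z + c`** -/
noncomputable def Sf (S : Sy ι Y) (j : ι → ι') (lev' : ι' → ℕ) (γ : Y → ι' → ℝ) (c : Y → ℝ) :
    Sy ι' (Y × Bool) :=
  (Sb S j lev').wH fun z x => S.H (fun e => z (j e)) x.1 + sgn x.2 * (lin (γ x.1) z + c x.1)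

lemma lip_lin' (b : ι' → ℝ) : Lip fun z : ι' → ℝ => lin b z :=
  Lip.sum _ fun e _ => (Lip.coord e).const_mul _

lemma Sf_reg (hS : S.Reg) (hj : Emb S j lev') (γ : Y → ι' → ℝ) (c : Y → ℝ) :
    (Sf S j lev' γ c).Reg where
  m0 := hS.m0
  mK := hS.mK
  mono := hS.mono
  pos := hS.pos
  lev := hj.le
  lip := fun x => (lip_j (hS.lip x.1) j).add
    (((lip_lin' (γ x.1)).add (Lip.const (c x.1))).const_mul (sgn x.2))

lemma sgn_sq (e : Bool) : sgn e ^ 2 = 1 := by
  unfold sgn
  split_ifs <;> norm_num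

lemma abs_sgn (e : Bool) : |sgn e| = 1 := by
  unfold sgn
  split_ifs <;> norm_num

lemma sum_sgn (u : ℝ) : ∑ e : Bool, Real.exp (sgn e * u) = 2 * Real.cosh u := by
  rw [Fintype.sum_bool, Real.cosh_eq]
  unfold sgn
  simp only [if_true, Bool.false_eq_true, if_false, one_mul, neg_one_mul]
  ring

lemma Sf_top (z : ι' → ℝ) : (Sf S j lev' γ c).top z =
    Real.log (∑ y, Real.exp (S.H (fun e => z (j e)) y) * (2 * Real.cosh (lin (γ y) z + c y))) := by
  unfold top
  rw [Fintype.sum_prod_type]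
  congr 1
  refine Finset.sum_congr rfl fun y _ => ?_
  rw [← sum_sgn, Finset.mul_sum]
  refine Finset.sum_congr rfl fun e _ => ?_
  rw [← Real.exp_add]
  rfl

lemma Sb_le_Sf (z : ι' → ℝ) : (Sb S j lev').top z ≤ (Sf S j lev' γ c).top z := by
  rw [Sf_top]
  have e1 : (Sb S j lev').top z = Real.log (∑ y, Real.exp (S.H (fun e => z (j e)) y) * 2) := by
    rw [Sb_top]
    unfold top
    rw [← Finset.sum_mul, Real.log_mul (S.sum_exp_pos _).ne' (by norm_num)]
  rw [e1]
  refine Real.log_le_log (Finset.sum_pos (fun y _ => by positivity) Finset.univ_nonempty) ?_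
  refine Finset.sum_le_sum fun y _ => mul_le_mul_of_nonneg_left ?_ (Real.exp_pos _).le
  have := Real.one_le_cosh (lin (γ y) z + c y)
  linarith

lemma ind_Sb (x : Y × Bool) : Ind (fun e => ¬ ∃ i, j i = e) fun z => (Sb S j lev').H z x := by
  intro z w hzw
  show S.H (fun e => z (j e)) x.1 = S.H (fun e => w (j e)) x.1
  congr 1
  funext e
  exact hzw (j e) (fun h => h ⟨e, rfl⟩)

/-- averages of one replica -/
theorem Sf_Ex_le (hS : S.Reg) (hj : Emb S j lev') (hγ : ∀ y i, γ y (j i) = 0) {v C : ℝ}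
    (hv : ∀ y, ∑ e, γ y e ^ 2 ≤ v) (hc : ∀ y, |c y| ≤ C) {G : Y → ℝ} (hG : ∀ y, 0 ≤ G y) :
    (Sf S j lev' γ c).Ex (fun _ x => G x.1) ≤ Real.exp (v / 2 + C) * S.Ex (fun _ y => G y) := by
  have hR := Sb_reg hS hj
  have hR' := Sf_reg hS hj γ c
  have key := Ex_le_of_top' (S := Sb S j lev')
    (H' := fun z x => S.H (fun e => z (j e)) x.1 + sgn x.2 * (lin (γ x.1) z + c x.1)) hR hR'
    (fun z => Sb_le_Sf z) (φ := fun _ x => G x.1) (Nh.snd fun (x : Y × Bool) => G x.1)
    (fun _ x => hG x.1) (B := fun e => ¬ ∃ i, j i = e) (b := fun x e => sgn x.2 * γ x.1 e)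
    (v := v) (c := C)
    (fun z x => by
      show S.H (fun e => z (j e)) x.1 + sgn x.2 * (lin (γ x.1) z + c x.1) -
        S.H (fun e => z (j e)) x.1 ≤ _
      have e1 : ∑ e, sgn x.2 * γ x.1 e * z e = sgn x.2 * lin (γ x.1) z := by
        unfold lin
        rw [Finset.mul_sum]
        exact Finset.sum_congr rfl fun e _ => by ring
      rw [e1]
      have e2 : sgn x.2 * c x.1 ≤ C := by
        refine (le_abs_self _).trans ?_
        rw [abs_mul, abs_sgn, one_mul]
        exact hc _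
      linarith)
    (fun x e he => by
      obtain ⟨i, rfl⟩ := not_not.1 he
      show sgn x.2 * γ x.1 (j i) = 0
      rw [hγ, mul_zero])
    (fun x => by
      refine le_trans (le_of_eq ?_) (hv x.1)
      refine Finset.sum_congr rfl fun e _ => ?_
      rw [mul_pow, sgn_sq, one_mul])
    (fun x => ind_Sb x) (fun x z w _ => rfl)
  rw [Sb_Ex hS hj (F := fun _ y => G y) (Nh.snd G)] at key
  exact key

/-- **averages of two replicas** -/
theorem Sf_pair_le (hS : S.Reg) (hj : Emb S j lev') (hγ : ∀ y i, γ y (j i) = 0) {v C : ℝ}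
    (hv : ∀ y, ∑ e, γ y e ^ 2 ≤ v) (hc : ∀ y, |c y| ≤ C) (hl : l ≤ S.K) {ψ : Y → Y → ℝ}
    (hψ : ∀ y y', 0 ≤ ψ y y') :
    (Sf S j lev' γ c).pairEx l (fun x x' => ψ x.1 x'.1) ≤
      Real.exp (2 * v + 2 * C) * S.pairEx l ψ := by
  have hR := Sb_reg hS hj
  have hR' := Sf_reg hS hj γ c
  have hl1 : l ≤ (Sb S j lev').K := hl
  have hl2 : l ≤ (Sf S j lev' γ c).K := hl
  rw [← Sb_pairEx hS hj hl ψ, ← dbl_Ex_pair hR' hl2 (fun x x' => ψ x.1 x'.1),
    ← dbl_Ex_pair hR hl1 (fun x x' => ψ x.1 x'.1)]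
  have hD := dbl_reg hR hl1
  have hD' := dbl_reg hR' hl2
  obtain ⟨H', hH'⟩ : ∃ H' : (ι' ⊕ ι' → ℝ) → (Y × Bool) × (Y × Bool) → ℝ,
    H' = fun z y => (Sf S j lev' γ c).H (z1 z) y.1 + (Sf S j lev' γ c).H (z2 lev' l z) y.2 :=
    ⟨_, rfl⟩
  have e1 : (dbl (Sb S j lev') l).wH H' = dbl (Sf S j lev' γ c) l := by
    rw [hH']
    rfl
  obtain ⟨γ', hγ'⟩ : ∃ γ' : Y × Bool → ι' → ℝ, γ' = fun x e => sgn x.2 * γ x.1 e := ⟨_, rfl⟩
  have hlin : ∀ (x : Y × Bool) (z : ι' → ℝ), lin (γ' x) z = sgn x.2 * lin (γ x.1) z := by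
    intro x z
    rw [hγ']
    unfold lin
    rw [Finset.mul_sum]
    exact Finset.sum_congr rfl fun e _ => by ring
  have hγ'2 : ∀ x, ∑ e, γ' x e ^ 2 ≤ v := by
    intro x
    refine le_trans (le_of_eq ?_) (hv x.1)
    rw [hγ']
    refine Finset.sum_congr rfl fun e _ => ?_
    show (sgn x.2 * γ x.1 e) ^ 2 = _
    rw [mul_pow, sgn_sq, one_mul]
  have hγ'0 : ∀ x e, (∃ i, j i = e) → γ' x e = 0 := by
    rintro x e ⟨i, rfl⟩
    rw [hγ']
    show sgn x.2 * γ x.1 (j i) = 0
    rw [hγ, mul_zero]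
  have hsc : ∀ x : Y × Bool, sgn x.2 * c x.1 ≤ C := fun x => by
    refine (le_abs_self _).trans ?_
    rw [abs_mul, abs_sgn, one_mul]
    exact hc _
  have key := Ex_le_of_top' (S := dbl (Sb S j lev') l) (H' := H') hD (by rw [e1]; exact hD')
    (fun z => by
      rw [e1, dbl_top, dbl_top]
      exact add_le_add (Sb_le_Sf _) (Sb_le_Sf _))
    (φ := fun _ y => ψ y.1.1 y.2.1)
    (Nh.snd fun (y : (Y × Bool) × (Y × Bool)) => ψ y.1.1 y.2.1)
    (fun _ y => hψ _ _) (B := fun e => Sum.elim (fun e => ¬ ∃ i, j i = e)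
      (fun e => ¬ ∃ i, j i = e) e)
    (b := a2 lev' l γ') (v := 4 * v) (c := 2 * C)
    (fun z y => by
      have h1 : H' z y - (dbl (Sb S j lev') l).H z y =
          lin (a2 lev' l γ' y) z + (sgn y.1.2 * c y.1.1 + sgn y.2.2 * c y.2.1) := by
        rw [lin_a2, hH', hlin, hlin]
        show (S.H (fun e => z1 z (j e)) y.1.1 + sgn y.1.2 * (lin (γ y.1.1) (z1 z) + c y.1.1)) +
          (S.H (fun e => z2 lev' l z (j e)) y.2.1 +
            sgn y.2.2 * (lin (γ y.2.1) (z2 lev' l z) + c y.2.1)) -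
          (S.H (fun e => z1 z (j e)) y.1.1 + S.H (fun e => z2 lev' l z (j e)) y.2.1) = _
        ring
      rw [h1]
      have := hsc y.1
      have := hsc y.2
      show lin (a2 lev' l γ' y) z + _ ≤ lin (a2 lev' l γ' y) z + 2 * C
      linarith)
    (fun y e he => by
      unfold a2
      rcases e with e | e
      · simp only [Sum.elim_inl]
        have he' : ∃ i, j i = e := not_not.1 he
        rw [hγ'0 _ _ he', hγ'0 _ _ he']
        simp
      · simp only [Sum.elim_inr]
        have he' : ∃ i, j i = e := not_not.1 he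
        rw [hγ'0 _ _ he']
        simp)
    (fun y => a2_sq_le lev' l hγ'2 y)
    (fun y z w hzw => by
      show S.H (fun e => z1 z (j e)) y.1.1 + S.H (fun e => z2 lev' l z (j e)) y.2.1 =
        S.H (fun e => z1 w (j e)) y.1.1 + S.H (fun e => z2 lev' l w (j e)) y.2.1
      have h1 : ∀ i, z (Sum.inl (j i)) = w (Sum.inl (j i)) := fun i =>
        hzw (Sum.inl (j i)) (fun h => h ⟨i, rfl⟩)
      have h2 : ∀ i, z (Sum.inr (j i)) = w (Sum.inr (j i)) := fun i =>
        hzw (Sum.inr (j i)) (fun h => h ⟨i, rfl⟩)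
      have e1 : (fun e => z1 z (j e)) = fun e => z1 w (j e) := by
        funext e
        exact h1 e
      have e2 : (fun e => z2 lev' l z (j e)) = fun e => z2 lev' l w (j e) := by
        funext e
        unfold z2 mix
        simp only [h1, h2]
      rw [e1, e2])
    (fun y z w hzw => rfl)
  rw [e1] at key
  have e3 : 4 * v / 2 + 2 * C = 2 * v + 2 * C := by ring
  rw [e3] at key
  exact key

end field

end Vale.Agent.P146.H826
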